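import Vale.Agent.P281.H842.HKT.Prod
import Vale.Agent.P281.H594.TS.Per0

/-!
# P281, project T-HKT (helper842), P1: Fubini on the product of two compact manifolds
-/

open Set Filter Metric MeasureTheory Vale.Agent.P272.K
open scoped Topology ContDiff ComplexConjugate ComplexOrder

noncomputable section

namespace Vale.Agent.P281.H842.HKT

open Vale.Agent.P281.H64.TK
open Vale.Agent.P281 (H840.TS.P_sub H840.TS.meas_P H840.TS.integ)

variable {a m : ℕ}

theorem vol_pe (a m : ℕ) : MeasurePreserving (pe a m) volume volume := by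
  have h1 := volume_measurePreserving_sumPiEquivProdPi (fun _ : Fin a ⊕ Fin m => ℂ)
  have h2 := (volume_measurePreserving_piCongrLeft (fun _ : Fin (a + m) => ℂ)
    (finSumFinEquiv (m := a) (n := m))).symm
  have h3 := h1.comp h2
  have e : (pe a m : Cm (a + m) → Cm a × Cm m) =
      (MeasurableEquiv.sumPiEquivProdPi (fun _ : Fin a ⊕ Fin m => ℂ)) ∘
        (MeasurableEquiv.piCongrLeft (fun _ : Fin (a + m) => ℂ) finSumFinEquiv).symm := by
    funext z
    rfl
  rw [e]
  exact h3

section
variable {T H Γ Γ' Γ₀ : Type} [TopologicalSpace T] [TopologicalSpace H] [Group Γ] [Group Γ']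
  [Subsingleton Γ] [Subsingleton Γ'] [MulAction Γ T] [MulAction Γ' H] [Group Γ₀] [Subsingleton Γ₀]
  [MulAction Γ₀ (T × H)] {S : Sheets a T Γ} {S' : Sheets m H Γ'}

theorem ap_cont : Continuous fun q : Cm a × Cm m => ap q.1 q.2 := (pe a m).symm.continuous

theorem integ_prod {D : Cm (a + m) → ℂ} (hD : ContinuousOn D (ball 0 3)) (i : Fin S.N)
    (j : Fin S'.N) : Integrable (fun q : Cm a × Cm m => D (ap q.1 q.2))
      ((volume.restrict (S.P i)).prod (volume.restrict (S'.P j))) := by
  rw [Measure.prod_restrict]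
  have h1 : IntegrableOn (fun q : Cm a × Cm m => D (ap q.1 q.2))
      (closedBall (0 : Cm a) 1 ×ˢ closedBall (0 : Cm m) 1) (volume.prod volume) := by
    refine ContinuousOn.integrableOn_compact
      ((isCompact_closedBall 0 1).prod (isCompact_closedBall 0 1))
      (hD.comp ap_cont.continuousOn ?_)
    rintro ⟨x, y⟩ ⟨hx, hy⟩
    exact ap_mem (closedBall_subset_ball (by norm_num) hx) (closedBall_subset_ball (by norm_num) hy)
  exact h1.mono_set (prod_mono ((H840.TS.P_sub S i).trans ball_subset_closedBall)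
    ((H840.TS.P_sub S' j).trans ball_subset_closedBall))

/-- **Fubini.** -/
theorem prod_int (D : Fin (prodS Γ₀ S S').N → Cm (a + m) → ℂ)
    (hD : ∀ q, ContinuousOn (D q) (ball 0 3)) :
    (prodS Γ₀ S S').int D = ∑ i, ∫ x in S.P i, S'.int fun j y => D (ix i j) (ap x y) := by
  have e0 : (prodS Γ₀ S S').int D = ∑ i, ∑ j, ∫ z in (prodS Γ₀ S S').P (ix i j), D (ix i j) z := by
    unfold Sheets.int
    have h : ∀ f : Fin (S.N * S'.N) → ℂ, ∑ q, f q = ∑ i, ∑ j, f (finProdFinEquiv (i, j)) := by
      intro f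
      rw [← Fintype.sum_prod_type', ← Equiv.sum_comp finProdFinEquiv f]
    exact h fun q => ∫ z in (prodS Γ₀ S S').P q, D q z
  rw [e0]
  refine Finset.sum_congr rfl fun i _ => ?_
  have e1 : ∀ j, ∫ z in (prodS Γ₀ S S').P (ix i j), D (ix i j) z =
      ∫ x in S.P i, ∫ y in S'.P j, D (ix i j) (ap x y) := by
    intro j
    rw [prodS_P]
    have h1 := (vol_pe a m).setIntegral_preimage_emb
      (pe a m).toHomeomorph.measurableEmbedding
      (fun q : Cm a × Cm m => D (ix i j) (ap q.1 q.2)) (S.P i ×ˢ S'.P j)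
    simp only [pe_apply, ap_p] at h1
    have h2 : ∫ z in pe a m ⁻¹' S.P i ×ˢ S'.P j, D (ix i j) z =
        ∫ q in S.P i ×ˢ S'.P j, D (ix i j) (ap q.1 q.2) := h1
    rw [h2]
    exact setIntegral_prod _ (by
      have h3 := integ_prod (S := S) (S' := S') (hD (ix i j)) i j
      rw [Measure.prod_restrict] at h3
      exact h3)
  simp only [e1]
  unfold Sheets.int
  rw [← integral_finsetSum]
  intro j _
  exact (integ_prod (S := S) (S' := S') (hD (ix i j)) i j).integral_prod_left

end

end Vale.Agent.P281.H842.HKT
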