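import Vale.Agent.P281.H842.HKT.CvC
import Vale.Agent.P281.H511.HKT.FibA

/-!
# P281, project T-HKT (helper842): the rational radical, in the letters of helper511
-/

open Set Filter Metric Vale.Agent.P272.K
open scoped Topology ContDiff Manifold

noncomputable section

namespace Vale.Agent.P281.H842.HKT

open Vale.Agent.P281.H64.TK Vale.Agent.P281.H64.TK.TS Vale.Agent.P281.H83.HK

theorem rr (mark : MarkStmt) (hPer : Per2Stmt) (fo : FormsStmt) : H511.HKT.RRStmt := by
  intro a h d M Γ H _ _ _ _ _ _ _ _ _ _ _ _ _ S Ψ u hd hh hΨ hH _ span1 w hw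
  exact ratRad_cvr mark hPer fo hd hh hΨ hH span1 w hw

end Vale.Agent.P281.H842.HKT
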