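import Vale.Agent.P281.H64.TS.Defs

/-!
# P281, project T-HKT (helper842), P1: the product of two compact manifolds given by sheets
-/

open Set Filter Metric MeasureTheory Vale.Agent.P272.K
open scoped Topology ContDiff ComplexConjugate ComplexOrder

noncomputable section

namespace Vale.Agent.P281.H842.HKT

open Vale.Agent.P281.H64.TK

variable {a m : ℕ}

/-- the first `a` coordinates -/
def p1 (z : Cm (a + m)) : Cm a := fun k => z (Fin.castAdd m k)

/-- the last `m` coordinates -/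
def p2 (z : Cm (a + m)) : Cm m := fun k => z (Fin.natAdd a k)

/-- the point with these coordinates -/
def ap (x : Cm a) (y : Cm m) : Cm (a + m) := Fin.append x y

@[simp] theorem p1_ap (x : Cm a) (y : Cm m) : p1 (ap x y) = x := by
  funext k
  simp [p1, ap]

@[simp] theorem p2_ap (x : Cm a) (y : Cm m) : p2 (ap x y) = y := by
  funext k
  simp [p2, ap]

@[simp] theorem ap_p (z : Cm (a + m)) : ap (p1 z) (p2 z) = z := by
  funext k
  refine Fin.addCases (fun k => ?_) (fun k => ?_) k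
  · simp [p1, ap]
  · simp [p2, ap]

/-- the coordinates as a continuous linear equivalence -/
def pe (a m : ℕ) : Cm (a + m) ≃L[ℂ] Cm a × Cm m where
  toFun z := (p1 z, p2 z)
  invFun q := ap q.1 q.2
  left_inv z := ap_p z
  right_inv q := by simp
  map_add' _ _ := rfl
  map_smul' _ _ := rfl
  continuous_toFun := by
    unfold p1 p2
    fun_prop
  continuous_invFun := by
    refine continuous_pi fun k => ?_
    refine Fin.addCases (fun k => ?_) (fun k => ?_) k
    · simp only [ap, Fin.append_left]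
      fun_prop
    · simp only [ap, Fin.append_right]
      fun_prop

theorem pe_apply (z : Cm (a + m)) : pe a m z = (p1 z, p2 z) := rfl

theorem pe_symm (x : Cm a) (y : Cm m) : (pe a m).symm (x, y) = ap x y := rfl

theorem norm_eq (z : Cm (a + m)) : ‖z‖ = max ‖p1 z‖ ‖p2 z‖ := by
  refine le_antisymm ?_ (max_le ?_ ?_)
  · refine (pi_norm_le_iff_of_nonneg (le_max_of_le_left (norm_nonneg _))).2 fun k => ?_
    refine Fin.addCases (fun k => ?_) (fun k => ?_) k
    · exact (norm_le_pi_norm (p1 z) k).trans (le_max_left _ _)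
    · exact (norm_le_pi_norm (p2 z) k).trans (le_max_right _ _)
  · exact (pi_norm_le_iff_of_nonneg (norm_nonneg _)).2 fun k => norm_le_pi_norm z (Fin.castAdd m k)
  · exact (pi_norm_le_iff_of_nonneg (norm_nonneg _)).2 fun k => norm_le_pi_norm z (Fin.natAdd a k)

theorem mem_ball_iff (z : Cm (a + m)) (r : ℝ) :
    z ∈ ball (0 : Cm (a + m)) r ↔ p1 z ∈ ball (0 : Cm a) r ∧ p2 z ∈ ball (0 : Cm m) r := by
  rw [mem_ball_zero_iff, mem_ball_zero_iff, mem_ball_zero_iff, norm_eq, max_lt_iff]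

theorem ap_mem {x : Cm a} {y : Cm m} {r : ℝ} (hx : x ∈ ball (0 : Cm a) r)
    (hy : y ∈ ball (0 : Cm m) r) : ap x y ∈ ball (0 : Cm (a + m)) r := by
  exact (mem_ball_iff _ _).2 ⟨by rwa [p1_ap], by rwa [p2_ap]⟩

section
variable {T H Γ Γ' Γ₀ : Type} [TopologicalSpace T] [TopologicalSpace H] [Group Γ] [Group Γ']
  [Subsingleton Γ] [Subsingleton Γ'] [MulAction Γ T] [MulAction Γ' H] [Group Γ₀] [Subsingleton Γ₀]
  [MulAction Γ₀ (T × H)]

theorem sm1' {G X : Type} [Group G] [Subsingleton G] [MulAction G X] (g : G) (x : X) :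
    g • x = x := by
  rw [Subsingleton.elim g 1, one_smul]

variable (Γ₀) in
/-- The product manifold. -/
def prodS (S : Sheets a T Γ) (S' : Sheets m H Γ') : Sheets (a + m) (T × H) Γ₀ where
  N := S.N * S'.N
  σ q z := (S.σ (finProdFinEquiv.symm q).1 (p1 z), S'.σ (finProdFinEquiv.symm q).2 (p2 z))
  map_nhds q z hz := by
    obtain ⟨h1, h2⟩ := (mem_ball_iff z 3).1 hz
    have e1 : (fun z : Cm (a + m) => (S.σ (finProdFinEquiv.symm q).1 (p1 z),
        S'.σ (finProdFinEquiv.symm q).2 (p2 z))) =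
        (Prod.map (S.σ (finProdFinEquiv.symm q).1) (S'.σ (finProdFinEquiv.symm q).2)) ∘ (pe a m) :=
      rfl
    rw [e1, ← Filter.map_map]
    have e2 : Filter.map (pe a m) (𝓝 z) = 𝓝 (p1 z) ×ˢ 𝓝 (p2 z) := by
      rw [← nhds_prod_eq]
      exact (pe a m).toHomeomorph.map_nhds_eq z
    rw [e2]
    have e3 := Filter.prod_map_map_eq (f₁ := 𝓝 (p1 z)) (f₂ := 𝓝 (p2 z))
      (m₁ := S.σ (finProdFinEquiv.symm q).1) (m₂ := S'.σ (finProdFinEquiv.symm q).2)
    rw [S.map_nhds _ _ h1, S'.map_nhds _ _ h2, ← nhds_prod_eq] at e3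
    exact e3.symm
  inj q z hz w hw γ h := by
    obtain ⟨h1, h2⟩ := (mem_ball_iff z 3).1 hz
    obtain ⟨h3, h4⟩ := (mem_ball_iff w 3).1 hw
    rw [sm1'] at h
    have h5 := congrArg Prod.fst h
    have h6 := congrArg Prod.snd h
    have h7 := (S.inj _ _ h1 _ h3 1 (by rw [one_smul]; exact h5)).2
    have h8 := (S'.inj _ _ h2 _ h4 1 (by rw [one_smul]; exact h6)).2
    refine ⟨Subsingleton.elim _ _, ?_⟩
    rw [← ap_p z, ← ap_p w, h7, h8]
  cover e := by
    obtain ⟨γ, i, z, hz, h⟩ := S.cover e.1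
    obtain ⟨γ', j, z', hz', h'⟩ := S'.cover e.2
    rw [sm1'] at h h'
    refine ⟨1, finProdFinEquiv (i, j), ap z z', ?_, ?_⟩
    · rw [norm_eq]
      simpa using ⟨hz, hz'⟩
    · rw [one_smul]
      simp only [Equiv.symm_apply_apply, p1_ap, p2_ap, h, h']
  closed q r hr := by
    have e1 : {e : T × H | ∃ (γ : Γ₀) (z : Cm (a + m)), ‖z‖ ≤ r ∧
        γ • ((S.σ (finProdFinEquiv.symm q).1 (p1 z), S'.σ (finProdFinEquiv.symm q).2 (p2 z)) :
          T × H) = e} =
        {e : T | ∃ (γ : Γ) (z : Cm a), ‖z‖ ≤ r ∧ γ • S.σ (finProdFinEquiv.symm q).1 z = e} ×ˢ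
        {e : H | ∃ (γ : Γ') (z : Cm m), ‖z‖ ≤ r ∧ γ • S'.σ (finProdFinEquiv.symm q).2 z = e} := by
      ext e
      constructor
      · rintro ⟨γ, z, hz, rfl⟩
        rw [norm_eq, max_le_iff] at hz
        rw [sm1']
        exact ⟨⟨1, p1 z, hz.1, one_smul _ _⟩, ⟨1, p2 z, hz.2, one_smul _ _⟩⟩
      · rintro ⟨⟨γ, z, hz, h⟩, ⟨γ', z', hz', h'⟩⟩
        rw [sm1'] at h h'
        refine ⟨1, ap z z', ?_, ?_⟩
        · rw [norm_eq]
          simpa using ⟨hz, hz'⟩
        · rw [one_smul]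
          simp only [p1_ap, p2_ap, h, h']
    rw [e1]
    exact (S.closed _ r hr).prod (S'.closed _ r hr)
  hol q q' z hz w hw γ h := by
    obtain ⟨h1, h2⟩ := (mem_ball_iff z 3).1 hz
    obtain ⟨h3, h4⟩ := (mem_ball_iff w 3).1 hw
    rw [sm1'] at h
    have h5 := congrArg Prod.fst h
    have h6 := congrArg Prod.snd h
    obtain ⟨θ, ha, hb, hc⟩ := S.hol _ _ _ h1 _ h3 1 (by rw [one_smul]; exact h5)
    obtain ⟨θ', ha', hb', hc'⟩ := S'.hol _ _ _ h2 _ h4 1 (by rw [one_smul]; exact h6)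
    refine ⟨fun u => ap (θ (p1 u)) (θ' (p2 u)), ?_, ?_, ?_⟩
    · have k1 : AnalyticAt ℂ (fun u : Cm (a + m) => p1 u) z :=
        ((ContinuousLinearMap.fst ℂ (Cm a) (Cm m)).comp
          (pe a m : Cm (a + m) →L[ℂ] Cm a × Cm m)).analyticAt z
      have k2 : AnalyticAt ℂ (fun u : Cm (a + m) => p2 u) z :=
        ((ContinuousLinearMap.snd ℂ (Cm a) (Cm m)).comp
          (pe a m : Cm (a + m) →L[ℂ] Cm a × Cm m)).analyticAt z
      have k3 : AnalyticAt ℂ (fun u : Cm (a + m) => (θ (p1 u), θ' (p2 u))) z :=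
        (ha.fun_comp (f := fun u : Cm (a + m) => p1 u) k1).prod
          (ha'.fun_comp (f := fun u : Cm (a + m) => p2 u) k2)
      exact (((pe a m).symm : Cm a × Cm m →L[ℂ] Cm (a + m)).analyticAt _).fun_comp k3
    · simp only [hb, hb', ap_p]
    · have t1 : Tendsto (fun u : Cm (a + m) => p1 u) (𝓝 z) (𝓝 (p1 z)) :=
        ((continuous_fst.comp (pe a m).continuous).tendsto z)
      have t2 : Tendsto (fun u : Cm (a + m) => p2 u) (𝓝 z) (𝓝 (p2 z)) :=
        ((continuous_snd.comp (pe a m).continuous).tendsto z)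
      filter_upwards [t1.eventually hc, t2.eventually hc'] with u hu hu'
      rw [sm1'] at hu hu'
      rw [sm1']
      simp only [p1_ap, p2_ap]
      rw [← hu, ← hu']

variable {S : Sheets a T Γ} {S' : Sheets m H Γ'}

/-- the sheet `(i, j)` -/
def ix (i : Fin S.N) (j : Fin S'.N) : Fin (prodS Γ₀ S S').N := finProdFinEquiv (i, j)

theorem prodS_σ (i : Fin S.N) (j : Fin S'.N) (z : Cm (a + m)) :
    (prodS Γ₀ S S').σ (ix i j) z = (S.σ i (p1 z), S'.σ j (p2 z)) := by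
  show (S.σ (finProdFinEquiv.symm (finProdFinEquiv (i, j))).1 (p1 z),
    S'.σ (finProdFinEquiv.symm (finProdFinEquiv (i, j))).2 (p2 z)) = _
  rw [Equiv.symm_apply_apply]

theorem ix_surj (q : Fin (prodS Γ₀ S S').N) : ∃ i j, q = ix i j := by
  have h : ∀ q : Fin (S.N * S'.N), ∃ i j, q = finProdFinEquiv (i, j) := fun q =>
    ⟨(finProdFinEquiv.symm q).1, (finProdFinEquiv.symm q).2, by
      rw [Prod.mk.eta, Equiv.apply_symm_apply]⟩
  exact h q

theorem ix_lt (i i' : Fin S.N) (j j' : Fin S'.N) :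
    ix (Γ₀ := Γ₀) i' j' < ix (Γ₀ := Γ₀) i j ↔ i' < i ∨ i' = i ∧ j' < j := by
  have e : ∀ (i : Fin S.N) (j : Fin S'.N), (ix (Γ₀ := Γ₀) i j).val = j.val + S'.N * i.val :=
    fun i j => rfl
  rw [Fin.lt_def, e, e]
  have hj := j.isLt
  have hj' := j'.isLt
  constructor
  · intro h
    rcases lt_trichotomy i' i with h1 | h1 | h1
    · exact Or.inl h1
    · subst h1
      exact Or.inr ⟨rfl, by
        rw [Fin.lt_def]
        omega⟩
    · exfalso
      have h2 : i.val + 1 ≤ i'.val := h1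
      have h3 := Nat.mul_le_mul_left S'.N h2
      rw [Nat.mul_add, Nat.mul_one] at h3
      omega
  · rintro (h | ⟨rfl, h⟩)
    · have h2 : i'.val + 1 ≤ i.val := h
      have h3 := Nat.mul_le_mul_left S'.N h2
      rw [Nat.mul_add, Nat.mul_one] at h3
      omega
    · rw [Fin.lt_def] at h
      omega

theorem prodS_P (i : Fin S.N) (j : Fin S'.N) :
    (prodS Γ₀ S S').P (ix i j) = pe a m ⁻¹' (S.P i ×ˢ S'.P j) := by
  ext z
  simp only [Sheets.P, mem_setOf_eq, mem_preimage, pe_apply, mem_prod]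
  constructor
  · rintro ⟨h1, h2⟩
    rw [norm_eq, max_lt_iff] at h1
    refine ⟨⟨h1.1, fun i' hi' γ w hw h => ?_⟩, ⟨h1.2, fun j' hj' γ w hw h => ?_⟩⟩
    · rw [sm1'] at h
      obtain ⟨γ', j', z', hz', h'⟩ := S'.cover (S'.σ j (p2 z))
      rw [sm1'] at h'
      refine h2 (ix i' j') ((ix_lt _ _ _ _).2 (Or.inl hi')) 1 (ap w z') ?_ ?_
      · rw [norm_eq]
        simpa using ⟨hw, hz'⟩
      · rw [one_smul, prodS_σ, prodS_σ, p1_ap, p2_ap, h, h']
    · rw [sm1'] at h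
      refine h2 (ix i j') ((ix_lt _ _ _ _).2 (Or.inr ⟨rfl, hj'⟩)) 1 (ap (p1 z) w) ?_ ?_
      · rw [norm_eq]
        simpa using ⟨h1.1, hw⟩
      · rw [one_smul, prodS_σ, prodS_σ, p1_ap, p2_ap, h]
  · rintro ⟨⟨h1, h2⟩, ⟨h3, h4⟩⟩
    refine ⟨by rw [norm_eq]; exact max_lt h1 h3, fun q hq γ w hw h => ?_⟩
    obtain ⟨i', j', rfl⟩ := ix_surj q
    rw [sm1', prodS_σ, prodS_σ] at h
    rw [norm_eq, max_lt_iff] at hw
    have h5 := congrArg Prod.fst h
    have h6 := congrArg Prod.snd h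
    rcases (ix_lt _ _ _ _).1 hq with h7 | ⟨rfl, h7⟩
    · exact h2 i' h7 1 (p1 w) hw.1 (by rw [one_smul]; exact h5)
    · exact h4 j' h7 1 (p2 w) hw.2 (by rw [one_smul]; exact h6)

end

end Vale.Agent.P281.H842.HKT
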