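import Vale.Agent.P281.H64.TS.Defs

/-!
# P281, project T-HKT (helper842), P4: integer valued continuous functions are constant
-/

open Set Filter Metric MeasureTheory Vale.Agent.P272.K
open scoped Topology ContDiff ComplexConjugate ComplexOrder

noncomputable section

namespace Vale.Agent.P281.H842.HKT

open Vale.Agent.P281.H64.TK

variable {a : ℕ}

theorem const_ball {f : Cm a → ℂ} (h1 : ContinuousOn f (ball 0 3))
    (h2 : ∀ t ∈ ball (0 : Cm a) 3, ∃ m : ℤ, f t = m) {t t' : Cm a} (ht : t ∈ ball (0 : Cm a) 3)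
    (ht' : t' ∈ ball (0 : Cm a) 3) : f t = f t' := by
  classical
  choose! n hn using h2
  have h3 : ContinuousOn n (ball 0 3) := by
    refine Int.isClosedEmbedding_coe_real.isInducing.continuousOn_iff.2 ?_
    have h4 : ContinuousOn (fun t => (f t).re) (ball 0 3) :=
      Complex.continuous_re.comp_continuousOn h1
    refine h4.congr fun t ht => ?_
    show ((n t : ℤ) : ℝ) = (f t).re
    rw [hn t ht, Complex.intCast_re]
  have h4 : n t = n t' := (convex_ball (0 : Cm a) 3).isPreconnected.constant h3 ht ht'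
  rw [hn t ht, hn t' ht', h4]

theorem const_int {T Γ : Type} [TopologicalSpace T] [Group Γ] [Subsingleton Γ] [MulAction Γ T]
    [PreconnectedSpace T] {S : Sheets a T Γ} {f : Fin S.N → Cm a → ℂ}
    (h1 : ∀ i, ContinuousOn (f i) (ball 0 3))
    (h2 : ∀ i, ∀ t ∈ ball (0 : Cm a) 3, ∃ m : ℤ, f i t = m)
    (h3 : ∀ i i', ∀ t ∈ ball (0 : Cm a) 3, ∀ t' ∈ ball (0 : Cm a) 3, S.σ i t = S.σ i' t' →
      f i t = f i' t') :
    ∃ m : ℤ, ∀ i, ∀ t ∈ ball (0 : Cm a) 3, f i t = m := by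
  classical
  have hc : ∀ e : T, ∃ (i : Fin S.N) (t : Cm a), t ∈ ball (0 : Cm a) 3 ∧ S.σ i t = e := by
    intro e
    obtain ⟨γ, i, z, hz, h⟩ := S.cover e
    refine ⟨i, z, ?_, ?_⟩
    · rw [mem_ball_zero_iff]
      linarith
    · rw [← h, Subsingleton.elim γ 1, one_smul]
  choose ci ct hct hce using hc
  have hF : ∀ i, ∀ t ∈ ball (0 : Cm a) 3, f (ci (S.σ i t)) (ct (S.σ i t)) = f i t :=
    fun i t ht => h3 _ _ _ (hct _) _ ht (hce _)
  have hl : IsLocallyConstant fun e => f (ci e) (ct e) := by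
    refine (IsLocallyConstant.iff_eventually_eq _).2 fun e => ?_
    have h4 : S.σ (ci e) '' ball 0 3 ∈ 𝓝 (S.σ (ci e) (ct e)) := by
      rw [← S.map_nhds _ _ (hct e)]
      exact image_mem_map (isOpen_ball.mem_nhds (hct e))
    rw [hce e] at h4
    filter_upwards [h4] with e' he'
    obtain ⟨t', ht', rfl⟩ := he'
    rw [hF _ _ ht']
    exact const_ball (h1 _) (h2 _) ht' (hct e)
  by_cases hN : Nonempty (Fin S.N)
  · obtain ⟨i0⟩ := hN
    have h0 : (0 : Cm a) ∈ ball (0 : Cm a) 3 := mem_ball_self (by norm_num)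
    obtain ⟨m, hm⟩ := h2 i0 0 h0
    refine ⟨m, fun i t ht => ?_⟩
    rw [← hm, ← hF i t ht, ← hF i0 0 h0]
    exact hl.apply_eq_of_preconnectedSpace _ _
  · exact ⟨0, fun i => absurd ⟨i⟩ hN⟩

end Vale.Agent.P281.H842.HKT
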