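import Vale.Agent.P281.H399.QT.Quo

/-!
# P281, project T-HKT (helper842), T1: the sheets of a complex torus `ℂ^a / K`
-/

open Set Filter Metric Vale.Agent.P272.K
open scoped Topology ContDiff ComplexConjugate Pointwise

noncomputable section

namespace Vale.Agent.P281.H842.HKT

open Vale.Agent.P281.H64.TK

variable {a : ℕ} {K : Type} [Group K] [MulAction K (Cm a)]

/-- `K` acts on `ℂ^a` by the translations `lam k`, at distance at least `6 ε` of `0` for `k ≠ 1`,
and the translates of the finitely many balls `ball (x i) ε` cover `ℂ^a`. -/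
structure TorData (lam : K → Cm a) (ε : ℝ) (N : ℕ) (x : Fin N → Cm a) : Prop where
  act : ∀ k (z : Cm a), k • z = z + lam k
  pos : 0 < ε
  dis : ∀ k, ‖lam k‖ < 6 * ε → k = 1
  cov : ∀ z : Cm a, ∃ (k : K) (i : Fin N), z + lam k ∈ ball (x i) ε

variable {lam : K → Cm a} {ε : ℝ} {N : ℕ} {x : Fin N → Cm a}

theorem TorData.one (h : TorData lam ε N x) : lam 1 = 0 := by
  have h1 := h.act 1 0
  rw [one_smul, zero_add] at h1
  exact h1.symm

theorem TorData.mul (h : TorData lam ε N x) (k l : K) : lam (k * l) = lam k + lam l := by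
  have h1 := h.act (k * l) 0
  rw [mul_smul, h.act l, h.act k, zero_add, zero_add] at h1
  rw [← h1, add_comm]

theorem TorData.inv (h : TorData lam ε N x) (k : K) : lam k⁻¹ = - lam k := by
  have h1 := h.mul k⁻¹ k
  rw [inv_mul_cancel, h.one] at h1
  exact eq_neg_of_add_eq_zero_left h1.symm

/-- the coordinates of the sheet `i` -/
def tσ (ε : ℝ) (x : Fin N → Cm a) (i : Fin N) (z : Cm a) : Cm a := x i + (ε : ℂ) • z

theorem tσ_cont (ε : ℝ) (x : Fin N → Cm a) (i : Fin N) : Continuous (tσ ε x i) := by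
  unfold tσ
  fun_prop

theorem closed_range (h : TorData lam ε N x) : IsClosed (range lam) := by
  refine Metric.isClosed_of_pairwise_le_dist (ε := 6 * ε) (by have := h.pos; positivity) ?_
  rintro _ ⟨k, rfl⟩ _ ⟨l, rfl⟩ hkl
  by_contra hc
  push Not at hc
  refine hkl ?_
  have h1 : l⁻¹ * k = 1 := by
    refine h.dis _ ?_
    rw [h.mul, h.inv, dist_eq_norm] at *
    rwa [neg_add_eq_sub]
  have h2 : k = l := by
    rw [inv_mul_eq_one] at h1
    exact h1.symm
  rw [h2]

/-- **The sheets of the torus.** -/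
def torS (h : TorData lam ε N x) : Sheets a (Cm a) K where
  N := N
  σ := tσ ε x
  map_nhds i z _ := by
    have hε : (ε : ℂ) ≠ 0 := Complex.ofReal_ne_zero.2 h.pos.ne'
    exact ((Homeomorph.smulOfNeZero (ε : ℂ) hε).trans (Homeomorph.addLeft (x i))).map_nhds_eq z
  inj i z hz w hw γ e := by
    have hε : (ε : ℂ) ≠ 0 := Complex.ofReal_ne_zero.2 h.pos.ne'
    have e1 : x i + (ε : ℂ) • z + lam γ = x i + (ε : ℂ) • w := by
      rw [← h.act]
      exact e
    have e2 : lam γ = (ε : ℂ) • (w - z) := by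
      rw [smul_sub]
      have e3 : lam γ = (x i + (ε : ℂ) • z + lam γ) - (x i + (ε : ℂ) • z) := by abel
      rw [e3, e1]
      abel
    have h1 : γ = 1 := by
      refine h.dis γ ?_
      rw [e2, norm_smul, Complex.norm_real, Real.norm_of_nonneg h.pos.le]
      have h2 : ‖w - z‖ < 6 := by
        rw [mem_ball_zero_iff] at hz hw
        have := norm_sub_le w z
        linarith
      nlinarith [h.pos]
    refine ⟨h1, ?_⟩
    rw [h1, h.one] at e2
    have h3 : w - z = 0 := (smul_eq_zero.1 e2.symm).resolve_left hε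
    exact (sub_eq_zero.1 h3).symm
  cover e := by
    have hε : (ε : ℂ) ≠ 0 := Complex.ofReal_ne_zero.2 h.pos.ne'
    obtain ⟨k, i, hi⟩ := h.cov e
    refine ⟨k⁻¹, i, (ε : ℂ)⁻¹ • (e + lam k - x i), ?_, ?_⟩
    · rw [norm_smul, norm_inv, Complex.norm_real, Real.norm_of_nonneg h.pos.le, inv_mul_lt_iff₀ h.pos,
        mul_one, ← dist_eq_norm]
      exact mem_ball.1 hi
    · rw [h.act, h.inv, tσ, smul_smul, mul_inv_cancel₀ hε, one_smul]
      abel
  closed i r _ := by
    have e1 : {e : Cm a | ∃ (γ : K) (z : Cm a), ‖z‖ ≤ r ∧ γ • tσ ε x i z = e} =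
        tσ ε x i '' closedBall 0 r + range lam := by
      ext e
      rw [Set.mem_add]
      constructor
      · rintro ⟨γ, z, hz, rfl⟩
        exact ⟨_, ⟨z, by simpa using hz, rfl⟩, _, ⟨γ, rfl⟩, (h.act _ _).symm⟩
      · rintro ⟨_, ⟨z, hz, rfl⟩, _, ⟨γ, rfl⟩, rfl⟩
        exact ⟨γ, z, by simpa using hz, h.act _ _⟩
    rw [e1]
    exact (closed_range h).add_left_of_isCompact ((isCompact_closedBall 0 r).image (tσ_cont ε x i))
  hol i j z _ w _ γ e := by
    have hε : (ε : ℂ) ≠ 0 := Complex.ofReal_ne_zero.2 h.pos.ne'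
    have e1 : x i + (ε : ℂ) • z = x j + (ε : ℂ) • w + lam γ := by
      rw [← h.act]
      exact e
    refine ⟨fun u => (ε : ℂ)⁻¹ • (x i - x j - lam γ) + u, ?_, ?_, Eventually.of_forall fun u => ?_⟩
    · exact analyticAt_const.add analyticAt_id
    · have e2 : x i - x j - lam γ = (ε : ℂ) • (w - z) := by
        rw [smul_sub, eq_sub_iff_add_eq]
        have e3 : x i - x j - lam γ + (ε : ℂ) • z = (x i + (ε : ℂ) • z) - x j - lam γ := by abel
        rw [e3, e1]
        abel
      show (ε : ℂ)⁻¹ • (x i - x j - lam γ) + z = w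
      rw [e2, smul_smul, inv_mul_cancel₀ hε, one_smul]
      abel
    · show tσ ε x i u = γ • tσ ε x j _
      rw [h.act]
      unfold tσ
      rw [smul_add, smul_smul, mul_inv_cancel₀ hε, one_smul]
      abel

/-- Existence, for a discrete cocompact group of translations. -/
theorem exists_tor {lam : K → Cm a} (hact : ∀ k (z : Cm a), k • z = z + lam k) {δ : ℝ} (hδ : 0 < δ)
    (hdis : ∀ k, ‖lam k‖ < δ → k = 1) {C : Set (Cm a)} (hC : IsCompact C)
    (hcov : ∀ z : Cm a, ∃ k : K, z + lam k ∈ C) :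
    ∃ (ε : ℝ) (N : ℕ) (x : Fin N → Cm a), TorData lam ε N x := by
  have hε : 0 < δ / 6 := by positivity
  obtain ⟨t, -, ht, hCt⟩ := hC.finite_cover_balls hε
  obtain ⟨N, e⟩ : ∃ N, Nonempty (Fin N ≃ t) := by
    have := ht.fintype
    exact ⟨_, ⟨(Fintype.equivFin t).symm⟩⟩
  obtain ⟨e⟩ := e
  refine ⟨δ / 6, N, fun i => (e i : Cm a), hact, hε, fun k hk => hdis k (by linarith), fun z => ?_⟩
  obtain ⟨k, hk⟩ := hcov z
  obtain ⟨y, hy, h1⟩ := mem_iUnion₂.1 (hCt hk)
  exact ⟨k, e.symm ⟨y, hy⟩, by simpa using h1⟩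

end Vale.Agent.P281.H842.HKT
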