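import Vale.Agent.P281.H842.HKT.ShH
import Vale.Agent.P281.H842.HKT.Tor
import Vale.Agent.P281.H842.HKT.Prod

/-!
# P281, project T-HKT (helper842), T3: a covering `ℂ^a × H → M` gives `M = T × H`
-/

open Set Filter Metric Vale.Agent.P272.K
open scoped Topology ContDiff Manifold ComplexConjugate

noncomputable section

namespace Vale.Agent.P281.H842.HKT

open Vale.Agent.P281.H64.TK Vale.Agent.P281.H64.TK.TS Vale.Agent.P281.H83.HK
open Vale.Agent.P281.H399.QT (One1 Qs pj quo)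
open Vale.Agent.P281.H22.TS (jac_comp jac_id jac_congr)

/-! ### Local inverses -/

theorem loc_inv {d : ℕ} {κ θ : Cm d → Cm d} {z p : Cm d} (hκ : AnalyticAt ℂ κ z) (hz : κ z = p)
    (hθ : AnalyticAt ℂ θ p) (_hp : θ p = z) (h : ∀ᶠ v in 𝓝 z, θ (κ v) = v) :
    (∀ᶠ r in 𝓝 p, κ (θ r) = r) ∧ (H64.TK.jac κ z).det ≠ 0 ∧ (H64.TK.jac θ p).det ≠ 0 := by
  have h1 : H64.TK.jac θ p * H64.TK.jac κ z = 1 := by
    rw [← jac_comp hz hθ.differentiableAt hκ.differentiableAt, ← jac_id z]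
    exact jac_congr h
  have h2 : (H64.TK.jac θ p).det * (H64.TK.jac κ z).det = 1 := by
    rw [← Matrix.det_mul, h1, Matrix.det_one]
  have h3 : (fderiv ℂ θ p).comp (fderiv ℂ κ z) = ContinuousLinearMap.id ℂ (Cm d) := by
    have k1 : HasFDerivAt θ (fderiv ℂ θ p) (κ z) := by
      rw [hz]
      exact hθ.differentiableAt.hasFDerivAt
    have k2 := k1.comp z hκ.differentiableAt.hasFDerivAt
    have k3 : HasFDerivAt (θ ∘ κ) (ContinuousLinearMap.id ℂ (Cm d)) z :=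
      (hasFDerivAt_id z).congr_of_eventuallyEq h
    exact k2.unique k3
  have h4 : Function.Injective (fderiv ℂ κ z : Cm d →ₗ[ℂ] Cm d) := by
    intro v w hvw
    have k := congrArg (fderiv ℂ θ p) hvw
    have k1 : ∀ v, fderiv ℂ θ p (fderiv ℂ κ z v) = v := fun v =>
      congrArg (fun f : Cm d →L[ℂ] Cm d => f v) h3
    exact (k1 v).symm.trans (k.trans (k1 w))
  have h5 : Function.Surjective (fderiv ℂ κ z : Cm d →ₗ[ℂ] Cm d) :=
    LinearMap.injective_iff_surjective.1 h4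
  have h6 : Filter.map κ (𝓝 z) = 𝓝 (κ z) :=
    hκ.hasStrictFDerivAt.map_nhds_eq_of_surj (LinearMap.range_eq_top.2 h5)
  refine ⟨?_, right_ne_zero_of_mul_eq_one h2, left_ne_zero_of_mul_eq_one h2⟩
  rw [← hz, ← h6, Filter.eventually_map]
  filter_upwards [h] with v hv
  rw [hv]

/-! ### The covering -/

section
variable {a h : ℕ} {M Γ H : Type} [TopologicalSpace M] [Group Γ] [MulAction Γ M]
  [TopologicalSpace H] [ChartedSpace (Cm h) H]

/-- The covering `Ψ : ℂ^a × H → M` (letters of helper702). -/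
structure CvrA (S : Sheets (a + h) M Γ) (Ψ : Cm a × H → M) : Prop where
  surj : Function.Surjective Ψ
  eqv : ∀ q q', Ψ q = Ψ q' → q'.2 = q.2 ∧ ∀ r, Ψ (r.1 + (q'.1 - q.1), r.2) = Ψ r
  cpt : ∃ C : Set (Cm a), IsCompact C ∧ ∀ z, ∃ l, (∀ r, Ψ (r.1 + l, r.2) = Ψ r) ∧ z + l ∈ C
  loc : ∀ j, ∀ z ∈ ball (0 : Cm (a + h)) 3, ∀ q, Ψ q = S.σ j z → ∀ e ∈ atlas (Cm h) H,
    q.2 ∈ e.source → ∃ (κ : Cm (a + h) → Cm a × Cm h) (θ : Cm a × Cm h → Cm (a + h)),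
      AnalyticAt ℂ κ z ∧ κ z = (q.1, e q.2) ∧ AnalyticAt ℂ θ (q.1, e q.2) ∧
      θ (q.1, e q.2) = z ∧ (∀ᶠ v in 𝓝 z, Ψ ((κ v).1, e.symm (κ v).2) = S.σ j v) ∧
      ∀ᶠ r in 𝓝 (q.1, e q.2), Ψ (r.1, e.symm r.2) = S.σ j (θ r)

variable {S : Sheets (a + h) M Γ} {Ψ : Cm a × H → M}

/-- The periods. -/
def per (Ψ : Cm a × H → M) : AddSubgroup (Cm a) where
  carrier := {l | ∀ r : Cm a × H, Ψ (r.1 + l, r.2) = Ψ r}
  zero_mem' := fun r => by simp
  add_mem' := fun {l l'} hl hl' r => by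
    have h1 := hl' (r.1 + l, r.2)
    simp only at h1
    rw [← add_assoc, h1, hl r]
  neg_mem' := fun {l} hl r => by
    have h1 := hl (r.1 + -l, r.2)
    simp only [neg_add_cancel_right] at h1
    exact h1.symm

theorem mem_per {l : Cm a} : l ∈ per Ψ ↔ ∀ r : Cm a × H, Ψ (r.1 + l, r.2) = Ψ r := Iff.rfl

theorem ap_cont' : Continuous fun q : Cm a × Cm h => ap q.1 q.2 := (pe a h).symm.continuous

theorem inj1 (S : Sheets (a + h) M Γ) {i : Fin S.N} {z w : Cm (a + h)}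
    (hz : z ∈ ball (0 : Cm (a + h)) 3) (hw : w ∈ ball (0 : Cm (a + h)) 3)
    (e : S.σ i z = S.σ i w) : z = w :=
  (S.inj i z hz w hw 1 (by rw [one_smul]; exact e)).2

/-- The local data, with coordinates. -/
theorem CvrA.loc' (hΨ : CvrA S Ψ) {j : Fin S.N} {z : Cm (a + h)} (hz : z ∈ ball (0 : Cm (a + h)) 3)
    {q : Cm a × H} (hq : Ψ q = S.σ j z) {e : Chart h H} (he : e ∈ atlas (Cm h) H)
    (hs : q.2 ∈ e.source) :
    ∃ κ θ : Cm (a + h) → Cm (a + h), AnalyticAt ℂ κ z ∧ κ z = ap q.1 (e q.2) ∧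
      AnalyticAt ℂ θ (ap q.1 (e q.2)) ∧ θ (ap q.1 (e q.2)) = z ∧
      (∀ᶠ v in 𝓝 z, Ψ (p1 (κ v), e.symm (p2 (κ v))) = S.σ j v) ∧
      (∀ᶠ r in 𝓝 (ap q.1 (e q.2)), Ψ (p1 r, e.symm (p2 r)) = S.σ j (θ r)) ∧
      (∀ᶠ v in 𝓝 z, θ (κ v) = v) ∧ (∀ᶠ r in 𝓝 (ap q.1 (e q.2)), κ (θ r) = r) := by
  obtain ⟨κ, θ, h1, h2, h3, h4, h5, h6⟩ := hΨ.loc j z hz q hq e he hs
  have a1 : AnalyticAt ℂ (fun v => (pe a h).symm (κ v)) z :=
    (((pe a h).symm : Cm a × Cm h →L[ℂ] Cm (a + h)).analyticAt _).fun_comp h1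
  have a2 : AnalyticAt ℂ (fun r => θ (pe a h r)) (ap q.1 (e q.2)) := by
    refine AnalyticAt.fun_comp ?_ ((pe a h : Cm (a + h) →L[ℂ] Cm a × Cm h).analyticAt _)
    show AnalyticAt ℂ θ (pe a h (ap q.1 (e q.2)))
    rw [pe_apply, p1_ap, p2_ap]
    exact h3
  have b1 : (pe a h).symm (κ z) = ap q.1 (e q.2) := by
    rw [h2]
    rfl
  have b2 : θ (pe a h (ap q.1 (e q.2))) = z := by
    rw [pe_apply, p1_ap, p2_ap, h4]
  have c1 : ∀ᶠ v in 𝓝 z, Ψ (p1 ((pe a h).symm (κ v)), e.symm (p2 ((pe a h).symm (κ v)))) =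
      S.σ j v := by
    filter_upwards [h5] with v hv
    have : pe a h ((pe a h).symm (κ v)) = κ v := (pe a h).apply_symm_apply _
    rw [pe_apply] at this
    have k1 : p1 ((pe a h).symm (κ v)) = (κ v).1 := congrArg Prod.fst this
    have k2 : p2 ((pe a h).symm (κ v)) = (κ v).2 := congrArg Prod.snd this
    rw [k1, k2, hv]
  have c2 : ∀ᶠ r in 𝓝 (ap q.1 (e q.2)), Ψ (p1 r, e.symm (p2 r)) = S.σ j (θ (pe a h r)) := by
    have k : Tendsto (pe a h) (𝓝 (ap q.1 (e q.2))) (𝓝 (q.1, e q.2)) := by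
      have := (pe a h).continuous.tendsto (ap q.1 (e q.2))
      rwa [pe_apply, p1_ap, p2_ap] at this
    filter_upwards [k.eventually h6] with r hr
    exact hr
  have c3 : ∀ᶠ v in 𝓝 z, θ (pe a h ((pe a h).symm (κ v))) = v := by
    have k0 : Tendsto (fun v => (pe a h).symm (κ v)) (𝓝 z) (𝓝 (ap q.1 (e q.2))) := by
      have := a1.continuousAt.tendsto
      rwa [b1] at this
    have k1 : ∀ᶠ v in 𝓝 z, θ (pe a h ((pe a h).symm (κ v))) ∈ ball (0 : Cm (a + h)) 3 := by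
      have k2 : ContinuousAt (fun r => θ (pe a h r)) (ap q.1 (e q.2)) := a2.continuousAt
      have k3 : Tendsto (fun v => θ (pe a h ((pe a h).symm (κ v)))) (𝓝 z)
          (𝓝 (θ (pe a h (ap q.1 (e q.2))))) :=
        Tendsto.comp (g := fun r => θ (pe a h r)) k2 k0
      rw [b2] at k3
      exact k3.eventually (isOpen_ball.mem_nhds hz)
    filter_upwards [c1, k0.eventually c2, k1, isOpen_ball.mem_nhds hz] with v v1 v2 v3 v4
    exact inj1 S v3 v4 (v2.symm.trans v1)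
  exact ⟨_, _, a1, b1, a2, b2, c1, c2, c3, (loc_inv a1 b1 a2 b2 c3).1⟩

theorem cov1 [Subsingleton Γ] (S : Sheets (a + h) M Γ) (y : M) :
    ∃ j, ∃ z ∈ ball (0 : Cm (a + h)) 3, S.σ j z = y := by
  obtain ⟨γ, j, z, hz, hy⟩ := S.cover y
  refine ⟨j, z, ?_, ?_⟩
  · rw [mem_ball_zero_iff]
    linarith
  · rw [← hy, Subsingleton.elim γ 1, one_smul]

/-- The periods are discrete. -/
theorem CvrA.disc [Subsingleton Γ] (hΨ : CvrA S Ψ) [Nonempty H] :
    ∃ δ : ℝ, 0 < δ ∧ ∀ l ∈ per Ψ, ‖l‖ < δ → l = 0 := by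
  obtain ⟨x0⟩ := ‹Nonempty H›
  obtain ⟨j, z, hz, hy⟩ := cov1 S (Ψ (0, x0))
  obtain ⟨κ, θ, -, -, h3, h4, -, h6, -, h8⟩ := hΨ.loc' hz hy.symm
    (chart_mem_atlas (Cm h) x0) (mem_chart_source (Cm h) x0)
  set e := chartAt (Cm h) x0 with he
  have k0 : Tendsto (fun l : Cm a => ap l (e x0)) (𝓝 0) (𝓝 (ap 0 (e x0))) := by
    have k1 : Continuous (fun l : Cm a => ap l (e x0)) :=
      ap_cont'.comp (by fun_prop : Continuous fun l : Cm a => (l, e x0))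
    exact k1.tendsto 0
  have k2 : ∀ᶠ r in 𝓝 (ap 0 (e x0)), θ r ∈ ball (0 : Cm (a + h)) 3 :=
    h3.continuousAt.eventually (isOpen_ball.mem_nhds (by
      show θ (ap 0 (e x0)) ∈ ball (0 : Cm (a + h)) 3
      rw [h4]
      exact hz))
  obtain ⟨δ, hδ, hb⟩ := Metric.eventually_nhds_iff.1 (k0.eventually (h6.and (h8.and k2)))
  refine ⟨δ, hδ, fun l hl hlδ => ?_⟩
  obtain ⟨b1, b2, b3⟩ := hb (y := l) (by rwa [dist_zero_right])
  simp only [p1_ap, p2_ap] at b1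
  rw [e.left_inv (mem_chart_source (Cm h) x0)] at b1
  have b4 := hl (0, x0)
  simp only [zero_add] at b4
  have b5 : S.σ j (θ (ap l (e x0))) = S.σ j z := by rw [← b1, b4, hy]
  have b6 : θ (ap l (e x0)) = z := inj1 S b3 hz b5
  have b7 : κ z = ap 0 (e x0) := by
    have := h8.self_of_nhds
    rwa [h4] at this
  rw [b6, b7] at b2
  have b8 := congrArg p1 b2
  simpa using b8.symm

theorem CvrA.cont [Subsingleton Γ] (hΨ : CvrA S Ψ) : Continuous Ψ := by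
  rw [continuous_iff_continuousAt]
  intro q
  obtain ⟨j, z, hz, hy⟩ := cov1 S (Ψ q)
  obtain ⟨κ, θ, -, -, h3, h4, -, h6, -, -⟩ := hΨ.loc' hz hy.symm
    (chart_mem_atlas (Cm h) q.2) (mem_chart_source (Cm h) q.2)
  set e := chartAt (Cm h) q.2 with he
  have hs : q.2 ∈ e.source := mem_chart_source (Cm h) q.2
  have k0 : Tendsto (fun q : Cm a × H => ap q.1 (e q.2)) (𝓝 q) (𝓝 (ap q.1 (e q.2))) := by
    have k1 : ContinuousAt (fun q : Cm a × H => (q.1, e q.2)) q :=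
      continuousAt_fst.prodMk ((e.continuousAt hs).comp continuousAt_snd)
    exact (ap_cont'.tendsto (q.1, e q.2)).comp k1
  have k3 : (fun q : Cm a × H => S.σ j (θ (ap q.1 (e q.2)))) =ᶠ[𝓝 q] Ψ := by
    have k4 : ∀ᶠ q' : Cm a × H in 𝓝 q, q'.2 ∈ e.source :=
      continuousAt_snd.eventually (e.open_source.mem_nhds hs)
    filter_upwards [k0.eventually h6, k4] with q' h7 h8
    rw [p1_ap, p2_ap, e.left_inv h8] at h7
    exact h7.symm
  refine ContinuousAt.congr ?_ k3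
  have k5 : ContinuousAt (S.σ j) (θ (ap q.1 (e q.2))) := by
    rw [h4]
    exact (S.map_nhds j z hz).le
  have k6 : ContinuousAt (fun q : Cm a × H => θ (ap q.1 (e q.2))) q :=
    ContinuousAt.comp (f := fun q : Cm a × H => ap q.1 (e q.2)) h3.continuousAt k0
  exact ContinuousAt.comp (f := fun q : Cm a × H => θ (ap q.1 (e q.2))) k5 k6

theorem CvrA.isOpenMap [Subsingleton Γ] (hΨ : CvrA S Ψ) : IsOpenMap Ψ := by
  rw [isOpenMap_iff_nhds_le]
  intro q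
  obtain ⟨j, z, hz, hy⟩ := cov1 S (Ψ q)
  obtain ⟨κ, θ, h1, h2, -, -, h5, -, -, -⟩ := hΨ.loc' hz hy.symm
    (chart_mem_atlas (Cm h) q.2) (mem_chart_source (Cm h) q.2)
  set e := chartAt (Cm h) q.2 with he
  have hs : q.2 ∈ e.source := mem_chart_source (Cm h) q.2
  rw [← hy, ← S.map_nhds j z hz]
  have k1 : (fun v => Ψ (p1 (κ v), e.symm (p2 (κ v)))) =ᶠ[𝓝 z] S.σ j := h5
  rw [← Filter.map_congr k1]
  have k2 : Filter.map (fun v => Ψ (p1 (κ v), e.symm (p2 (κ v)))) (𝓝 z) =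
      Filter.map Ψ (Filter.map (fun v => (p1 (κ v), e.symm (p2 (κ v)))) (𝓝 z)) := by
    rw [Filter.map_map]
    rfl
  rw [k2]
  refine Filter.map_mono ?_
  have k3 : Tendsto (fun v => (p1 (κ v), p2 (κ v))) (𝓝 z) (𝓝 (q.1, e q.2)) := by
    have k4 : Tendsto (pe a h) (𝓝 (κ z)) (𝓝 (pe a h (κ z))) := (pe a h).continuous.tendsto _
    have k5 := k4.comp h1.continuousAt
    rw [h2, pe_apply, p1_ap, p2_ap] at k5
    exact k5
  have k6 : ContinuousAt (fun r : Cm a × Cm h => (r.1, e.symm r.2)) (q.1, e q.2) :=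
    continuousAt_fst.prodMk (ContinuousAt.comp (f := fun r : Cm a × Cm h => r.2)
      (e.continuousAt_symm (e.map_source hs)) continuousAt_snd)
  have k7 : Tendsto (fun r : Cm a × Cm h => (r.1, e.symm r.2)) (𝓝 (q.1, e q.2)) (𝓝 q) := by
    have k8 := k6.tendsto
    simp only [e.left_inv hs] at k8
    exact k8
  exact k7.comp k3

end

end Vale.Agent.P281.H842.HKT
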