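import Vale.Agent.P281.H842.HKT.CvA
import Vale.Agent.P281.H511.TS.Mk
import Vale.Agent.P281.H83.HKT.Defs

/-!
# P281, project T-HKT (helper842), T3: the homeomorphism `M ≃ T × H`
-/

open Set Filter Metric Vale.Agent.P272.K
open scoped Topology ContDiff Manifold ComplexConjugate

noncomputable section

namespace Vale.Agent.P281.H842.HKT

open Vale.Agent.P281.H64.TK Vale.Agent.P281.H64.TK.TS Vale.Agent.P281.H83.HK Vale.Agent.P281.H83.HKT
open Vale.Agent.P281.H399.QT (One1 Qs pj quo)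

/-- Two quotient maps with the same fibres. -/
def homeoOf {X A B : Type} [TopologicalSpace X] [TopologicalSpace A] [TopologicalSpace B]
    {f : X → A} {g : X → B} (hf : Topology.IsQuotientMap f) (hg : Topology.IsQuotientMap g)
    (h : ∀ x y, f x = f y ↔ g x = g y) : A ≃ₜ B where
  toFun a := g (Function.surjInv hf.surjective a)
  invFun b := f (Function.surjInv hg.surjective b)
  left_inv a := by
    have h1 : f (Function.surjInv hg.surjective (g (Function.surjInv hf.surjective a))) =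
        f (Function.surjInv hf.surjective a) := (h _ _).2 (Function.surjInv_eq hg.surjective _)
    exact h1.trans (Function.surjInv_eq hf.surjective _)
  right_inv b := by
    have h1 : g (Function.surjInv hf.surjective (f (Function.surjInv hg.surjective b))) =
        g (Function.surjInv hg.surjective b) := (h _ _).1 (Function.surjInv_eq hf.surjective _)
    exact h1.trans (Function.surjInv_eq hg.surjective _)
  continuous_toFun := by
    refine hf.continuous_iff.2 ?_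
    have h1 : (fun a => g (Function.surjInv hf.surjective a)) ∘ f = g := by
      funext x
      exact (h _ _).1 (Function.surjInv_eq hf.surjective _)
    rw [h1]
    exact hg.continuous
  continuous_invFun := by
    refine hg.continuous_iff.2 ?_
    have h1 : (fun b => f (Function.surjInv hg.surjective b)) ∘ g = f := by
      funext x
      exact (h _ _).2 (Function.surjInv_eq hg.surjective _)
    rw [h1]
    exact hf.continuous

theorem homeoOf_apply {X A B : Type} [TopologicalSpace X] [TopologicalSpace A] [TopologicalSpace B]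
    {f : X → A} {g : X → B} (hf : Topology.IsQuotientMap f) (hg : Topology.IsQuotientMap g)
    (h : ∀ x y, f x = f y ↔ g x = g y) (x : X) : homeoOf hf hg h (f x) = g x :=
  (h _ _).1 (Function.surjInv_eq hf.surjective _)

section
variable {a h : ℕ} {M Γ H : Type} [TopologicalSpace M] [Group Γ] [MulAction Γ M]
  [TopologicalSpace H] [ChartedSpace (Cm h) H]

/-- The group of the periods. -/
abbrev KP (Ψ : Cm a × H → M) : Type := Multiplicative (per Ψ)

/-- The translation. -/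
def lamP (Ψ : Cm a × H → M) (k : KP Ψ) : Cm a := ((Multiplicative.toAdd k : per Ψ) : Cm a)

omit [TopologicalSpace M] [TopologicalSpace H] [ChartedSpace (Cm h) H] in
theorem actP (Ψ : Cm a × H → M) (k : KP Ψ) (z : Cm a) : k • z = z + lamP Ψ k := by
  rw [add_comm]
  rfl

instance (Ψ : Cm a × H → M) : ContinuousConstSMul (KP Ψ) (Cm a) :=
  ⟨fun k => by
    have h1 : (fun z : Cm a => k • z) = fun z => z + lamP Ψ k := funext (actP Ψ k)
    rw [h1]
    fun_prop⟩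

variable {S : Sheets (a + h) M Γ} {Ψ : Cm a × H → M}

theorem exists_torP [Subsingleton Γ] (hΨ : CvrA S Ψ) [Nonempty H] :
    ∃ (ε : ℝ) (N : ℕ) (x : Fin N → Cm a), TorData (lamP Ψ) ε N x := by
  obtain ⟨δ, hδ, h1⟩ := hΨ.disc
  obtain ⟨C, hC, h2⟩ := hΨ.cpt
  refine exists_tor (actP Ψ) hδ (fun k hk => ?_) hC fun z => ?_
  · have h3 := h1 (lamP Ψ k) (Multiplicative.toAdd k).2 hk
    exact Multiplicative.toAdd.injective (Subtype.ext h3)
  · obtain ⟨l, hl, h3⟩ := h2 z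
    exact ⟨Multiplicative.ofAdd ⟨l, hl⟩, h3⟩

/-- The projection `ℂ^a × H → T × H`. -/
def rho (Ψ : Cm a × H → M) (q : Cm a × H) : Qs (KP Ψ) (Cm a) × H := (pj (KP Ψ) q.1, q.2)

theorem rho_quot (Ψ : Cm a × H → M) : Topology.IsQuotientMap (rho Ψ) := by
  have h1 : rho Ψ = Prod.map (pj (KP Ψ)) id := rfl
  rw [h1]
  exact (H399.QT.isOpenMap_pj.prodMap IsOpenMap.id).isQuotientMap
    (H399.QT.continuous_pj.prodMap continuous_id)
    (H399.QT.pj_surj.prodMap Function.surjective_id)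

theorem CvrA.quot [Subsingleton Γ] (hΨ : CvrA S Ψ) : Topology.IsQuotientMap Ψ :=
  hΨ.isOpenMap.isQuotientMap hΨ.cont hΨ.surj

theorem CvrA.same (hΨ : CvrA S Ψ) (q q' : Cm a × H) : Ψ q = Ψ q' ↔ rho Ψ q = rho Ψ q' := by
  constructor
  · intro e
    obtain ⟨h1, h2⟩ := hΨ.eqv q' q e.symm
    refine Prod.ext (H399.QT.pj_eq.2 ⟨Multiplicative.ofAdd ⟨q.1 - q'.1, h2⟩, ?_⟩) h1
    rw [actP]
    show q'.1 + (q.1 - q'.1) = q.1
    abel
  · intro e
    have e1 : pj (KP Ψ) q.1 = pj (KP Ψ) q'.1 :=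
      congrArg (fun p : Qs (KP Ψ) (Cm a) × H => p.1) e
    obtain ⟨k, hk⟩ := H399.QT.pj_eq.1 e1
    have h2 : q.2 = q'.2 := congrArg (fun p : Qs (KP Ψ) (Cm a) × H => p.2) e
    rw [actP] at hk
    have h3 : Ψ (q'.1 + lamP Ψ k, q'.2) = Ψ q' := (Multiplicative.toAdd k).2 q'
    rw [hk, ← h2] at h3
    exact h3

/-- **The homeomorphism `M ≃ T × H`.** -/
def CvrA.tau [Subsingleton Γ] (hΨ : CvrA S Ψ) : M ≃ₜ Qs (KP Ψ) (Cm a) × H :=
  homeoOf hΨ.quot (rho_quot Ψ) hΨ.same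

theorem CvrA.tau_apply [Subsingleton Γ] (hΨ : CvrA S Ψ) (q : Cm a × H) :
    hΨ.tau (Ψ q) = rho Ψ q := homeoOf_apply _ _ _ q

theorem an_ap {f : Cm (a + h) → Cm a} {g : Cm (a + h) → Cm h} {z : Cm (a + h)}
    (hf : AnalyticAt ℂ f z) (hg : AnalyticAt ℂ g z) : AnalyticAt ℂ (fun v => ap (f v) (g v)) z :=
  (((pe a h).symm : Cm a × Cm h →L[ℂ] Cm (a + h)).analyticAt _).fun_comp (hf.prod hg)

theorem an_p1 (z : Cm (a + h)) : AnalyticAt ℂ (fun v : Cm (a + h) => p1 v) z :=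
  ((ContinuousLinearMap.fst ℂ (Cm a) (Cm h)).comp
    (pe a h : Cm (a + h) →L[ℂ] Cm a × Cm h)).analyticAt z

theorem an_p2 (z : Cm (a + h)) : AnalyticAt ℂ (fun v : Cm (a + h) => p2 v) z :=
  ((ContinuousLinearMap.snd ℂ (Cm a) (Cm h)).comp
    (pe a h : Cm (a + h) →L[ℂ] Cm a × Cm h)).analyticAt z

/-- the inverse of `tσ` -/
def ti {N : ℕ} (ε : ℝ) (x : Fin N → Cm a) (i : Fin N) (w : Cm a) : Cm a := (ε : ℂ)⁻¹ • (w - x i)

theorem tσ_ti {N : ℕ} {ε : ℝ} (hε : 0 < ε) (x : Fin N → Cm a) (i : Fin N) (w : Cm a) :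
    tσ ε x i (ti ε x i w) = w := by
  have h1 : (ε : ℂ) ≠ 0 := Complex.ofReal_ne_zero.2 hε.ne'
  rw [tσ, ti, smul_smul, mul_inv_cancel₀ h1, one_smul]
  abel

theorem ti_tσ {N : ℕ} {ε : ℝ} (hε : 0 < ε) (x : Fin N → Cm a) (i : Fin N) (z : Cm a) :
    ti ε x i (tσ ε x i z) = z := by
  have h1 : (ε : ℂ) ≠ 0 := Complex.ofReal_ne_zero.2 hε.ne'
  rw [tσ, ti, add_sub_cancel_left, smul_smul, inv_mul_cancel₀ h1, one_smul]

theorem ti_an {N : ℕ} (ε : ℝ) (x : Fin N → Cm a) (i : Fin N) (w : Cm a) :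
    AnalyticAt ℂ (ti ε x i) w :=
  (((ε : ℂ)⁻¹ • ContinuousLinearMap.id ℂ (Cm a)).analyticAt (w - x i)).fun_comp
    (f := fun v : Cm a => v - x i) (analyticAt_id.sub analyticAt_const)

theorem tσ_an {N : ℕ} (ε : ℝ) (x : Fin N → Cm a) (i : Fin N) (w : Cm a) :
    AnalyticAt ℂ (tσ ε x i) w :=
  analyticAt_const.add (((ε : ℂ) • ContinuousLinearMap.id ℂ (Cm a)).analyticAt w)

variable {Γ₀ G : Type} [Group G] [Subsingleton G] [MulAction G H] [Group Γ₀] [Subsingleton Γ₀]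
  [T2Space H] [IsManifold 𝓘(ℂ, Cm h) ω H]

/-- **The homeomorphism is biholomorphic.** -/
theorem CvrA.tau_hol [Subsingleton Γ] (hΨ : CvrA S Ψ) [MulAction Γ₀ (Qs (KP Ψ) (Cm a) × H)]
    {ε : ℝ} {N : ℕ} {x : Fin N → Cm a}
    (D : TorData (lamP Ψ) ε N x) {N' : ℕ} {y : Fin N' → H} {r : Fin N' → ℝ} (D' : ShData h N' y r) :
    H511.TS.Hol S (prodS Γ₀ (quo (torS D)) (shS (K := G) D')) hΨ.tau := by
  intro i q z hz z' hz' he
  obtain ⟨i', j', rfl⟩ := ix_surj q
  obtain ⟨hz1, hz2⟩ := (mem_ball_iff z' 3).1 hz'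
  rw [prodS_σ] at he
  set q0 : Cm a × H := (tσ ε x i' (p1 z'), hσ (y j') (r j') (p2 z')) with hq0
  have h0 : Ψ q0 = S.σ i z := by
    apply hΨ.tau.injective
    rw [he, hΨ.tau_apply]
    rfl
  have hs : q0.2 ∈ (chartAt (Cm h) (y j')).source := D'.mem_source j' hz2
  obtain ⟨κ, θ, h1, h2, h3, h4, h5, h6, h7, h8⟩ :=
    hΨ.loc' hz h0 (chart_mem_atlas (Cm h) (y j')) hs
  have hc2 : chartAt (Cm h) (y j') q0.2 = hc (y j') (r j') (p2 z') := D'.chart j' hz2
  have hq1 : q0.1 = tσ ε x i' (p1 z') := rfl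
  rw [hc2, hq1] at h2 h3 h4 h8
  have k1 : AnalyticAt ℂ (fun v => ap (ti ε x i' (p1 (κ v))) (hi (y j') (r j') (p2 (κ v)))) z :=
    an_ap ((ti_an ε x i' _).fun_comp ((an_p1 _).fun_comp h1))
      ((hi_an _ _ _).fun_comp ((an_p2 _).fun_comp h1))
  have k2 : ap (ti ε x i' (p1 (κ z))) (hi (y j') (r j') (p2 (κ z))) = z' := by
    have e1 : ti ε x i' (p1 (κ z)) = p1 z' := by
      rw [h2, p1_ap]
      exact ti_tσ D.pos x i' _
    have e2 : hi (y j') (r j') (p2 (κ z)) = p2 z' := by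
      rw [h2, p2_ap]
      exact hi_hc _ (D'.pos j') _
    rw [e1, e2, ap_p]
  have k3 : AnalyticAt ℂ (fun w => θ (ap (tσ ε x i' (p1 w)) (hc (y j') (r j') (p2 w)))) z' := by
    refine AnalyticAt.fun_comp (f := fun w => ap (tσ ε x i' (p1 w)) (hc (y j') (r j') (p2 w))) ?_
      (an_ap ((tσ_an ε x i' _).fun_comp (an_p1 _)) ((hc_an _ _ _).fun_comp (an_p2 _)))
    exact h3
  have k4 : ∀ᶠ v in 𝓝 z, (fun w => θ (ap (tσ ε x i' (p1 w)) (hc (y j') (r j') (p2 w))))
      (ap (ti ε x i' (p1 (κ v))) (hi (y j') (r j') (p2 (κ v)))) = v := by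
    filter_upwards [h7] with v hv
    simp only [p1_ap, p2_ap]
    have e1 : tσ ε x i' (ti ε x i' (p1 (κ v))) = p1 (κ v) := tσ_ti D.pos x i' _
    have e2 : hc (y j') (r j') (hi (y j') (r j') (p2 (κ v))) = p2 (κ v) := hc_hi _ (D'.pos j') _
    rw [e1, e2, ap_p, hv]
  refine ⟨_, ⟨k1, k2, ?_⟩, (loc_inv k1 k2 k3 h4 k4).2.1⟩
  filter_upwards [h5] with v hv
  rw [← hv, hΨ.tau_apply, prodS_σ, p1_ap, p2_ap]
  refine Prod.ext ?_ ?_
  · have e1 : tσ ε x i' (ti ε x i' (p1 (κ v))) = p1 (κ v) := tσ_ti D.pos x i' _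
    exact (congrArg (pj (KP Ψ)) e1).symm
  · have e2 : hc (y j') (r j') (hi (y j') (r j') (p2 (κ v))) = p2 (κ v) := hc_hi _ (D'.pos j') _
    exact (congrArg (chartAt (Cm h) (y j')).symm e2).symm

end

end Vale.Agent.P281.H842.HKT
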