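import Vale.Agent.P281.H842.HKT.Rad0
import Vale.Agent.P281.H594.HK.Per

/-!
# P281, project T-HKT (helper842), P4, P7: the radical of the product of two compact manifolds is
rational
-/

open Set Filter Metric MeasureTheory Vale.Agent.P272.K Vale.Agent.P281.H713
open scoped Topology ContDiff ComplexConjugate ComplexOrder

noncomputable section

namespace Vale.Agent.P281.H842.HKT

open Vale.Agent.P281.H64.TK Vale.Agent.P281.H64.TK.TS Vale.Agent.P281.H83.HK Vale.Agent.P281.H83.HKT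
open Vale.Agent.P281.H751.HKT (rs inc fc)
open Vale.Agent.P281.H125.HKT (sl slw sl_cl2 sl_real2 sl_move sl_kw slw_kah exists_J)

variable {a m : ℕ} {T H Γ Γ' Γ₀ : Type} [TopologicalSpace T] [TopologicalSpace H] [Group Γ]
  [Group Γ'] [Subsingleton Γ] [Subsingleton Γ'] [MulAction Γ T] [MulAction Γ' H] [Group Γ₀]
  [Subsingleton Γ₀] [MulAction Γ₀ (T × H)] {S : Sheets a T Γ} {S' : Sheets m H Γ'}

/-- The class of the slices is a continuous function. -/
theorem cl_sl_cont [T2Space H] [ContinuousConstSMul Γ' H] (hm : 1 < m) {r : ℕ} (M' : Mark2 S' r)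
    {x : Fin (prodS Γ₀ S S').N → Cm (a + m) → L2 (a + m)} (hx : ∀ q, ContinuousOn (x q) (ball 0 3))
    (hs : ∀ i, ∀ t ∈ ball (0 : Cm a) 3, Cl2 S' (sl x i t)) {c : Fin S'.N → Cm m → L2 m}
    (hc : Cl2 S' c) (hcr : Real2 S' c) (hB : Nd (Bc M' c)) (i : Fin S.N) (p : Fin r) :
    ContinuousOn (fun t => M'.cl (sl x i t) p) (ball 0 3) := by
  have hm0 : 0 < m := by omega
  set B : Matrix (Fin r) (Fin r) ℂ := (Bc M' c).map Complex.ofRealHom with hBd
  have hdet : IsUnit B.det := by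
    have h1 : B.det = Complex.ofRealHom (Bc M' c).det := by
      rw [hBd, RingHom.map_det]
      rfl
    rw [h1, isUnit_iff_ne_zero]
    exact Complex.ofReal_ne_zero.2 (nd_det hB)
  -- the integrals against the basis
  have h2 : ∀ t ∈ ball (0 : Cm a) 3, (fun l => bW S' (sl x i t) (M'.b l) c) =
      Matrix.vecMul (M'.cl (sl x i t)) B := by
    intro t ht
    funext l
    rw [H594.HK.bW_exp hm0 M' (hs i t ht) (M'.closed l) hc]
    show _ = ∑ k, M'.cl (sl x i t) k * B k l
    refine Finset.sum_congr rfl fun k _ => ?_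
    rw [← H594.HK.Bc_eq M' hcr]
    rfl
  have h3 : ∀ t ∈ ball (0 : Cm a) 3, M'.cl (sl x i t) p =
      ∑ l, bW S' (sl x i t) (M'.b l) c * B⁻¹ l p := by
    intro t ht
    have h4 : M'.cl (sl x i t) =
        Matrix.vecMul (fun l => bW S' (sl x i t) (M'.b l) c) B⁻¹ := by
      rw [h2 t ht, Matrix.vecMul_vecMul, Matrix.mul_nonsing_inv _ hdet, Matrix.vecMul_one]
    rw [h4]
    rfl
  have h5 : ContinuousOn (fun t => ∑ l, bW S' (sl x i t) (M'.b l) c * B⁻¹ l p) (ball 0 3) :=
    continuousOn_finsetSum _ fun l _ => (bW_sl_cont hx (H594.HK.cl2_cont (M'.closed l))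
      (H594.HK.cl2_cont hc) i).mul continuousOn_const
  exact h5.congr h3

/-- The form `B` for two forms with the same class. -/
theorem Bc_of_cl [T2Space H] [ContinuousConstSMul Γ' H] {r : ℕ} (M' : Mark2 S' r)
    {c c' : Fin S'.N → Cm m → L2 m} (hc : Cl2 S' c) (hc' : Cl2 S' c') (h : M'.cl c = M'.cl c') :
    Bc M' c = Bc M' c' := by
  refine H834.HK.Bc_class M' hc hc' ?_
  have h1 := H594.TS.exact_sub (M'.ex c hc) (M'.ex c' hc')
  refine H594.TS.exact_congr h1 fun i z _ => ?_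
  rw [h]
  abel

/-- **The restriction to the slices, on classes, is a constant integer matrix.** -/
theorem cst_J [T2Space H] [ContinuousConstSMul Γ' H] [PreconnectedSpace T] [Nonempty T]
    (hm : 1 < m) {n r : ℕ} (M : Mark2 (prodS Γ₀ S S') n) (M' : Mark2 S' r)
    {c : Fin S'.N → Cm m → L2 m} (hc : Cl2 S' c) (hcr : Real2 S' c) (hB : Nd (Bc M' c)) :
    ∃ (J : Matrix (Fin r) (Fin n) ℤ) (J' : Matrix (Fin n) (Fin r) ℤ), J * J' = 1 ∧
      ∀ i, ∀ t ∈ ball (0 : Cm a) 3, ∀ x, Cl2 (prodS Γ₀ S S') x →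
        M'.cl (sl x i t) = (J.map (Int.cast : ℤ → ℂ)).mulVec (M.cl x) := by
  classical
  obtain ⟨e0⟩ := ‹Nonempty T›
  obtain ⟨-, i0, -, -, -⟩ := S.cover e0
  have h0 : (0 : Cm a) ∈ ball (0 : Cm a) 3 := mem_ball_self (by norm_num)
  obtain ⟨J, J', h1, h2, -, -⟩ := exists_J M M' i0 h0
  refine ⟨J, J', h1, fun i t ht x hx => ?_⟩
  obtain ⟨J₁, -, -, k2, -, k3⟩ := exists_J M M' i ht
  have h4 : J₁ = J := by
    ext l k
    obtain ⟨N, hN⟩ := const_int (S := S) (f := fun i t => M'.cl (sl (M.b k) i t) l)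
      (fun i => cl_sl_cont hm M' (H594.HK.cl2_cont (M.closed k))
        (fun i t ht => sl_cl2 (M.closed k) i ht) hc hcr hB i l)
      (fun i t ht => by
        obtain ⟨J₂, -, -, j2, -, -⟩ := exists_J M M' i ht
        exact ⟨_, j2 k l⟩)
      (fun i i' t ht t' ht' h => by
        have h5 := H594.TS.cl_congr M' (sl_cl2 (M.closed k) i ht) (sl_cl2 (M.closed k) i' ht')
          (fun j y hy => sl_move (M.closed k).toF2On ht ht' h j hy)
        simp only [h5])
    have h6 : ((J₁ l k : ℤ) : ℂ) = ((J l k : ℤ) : ℂ) := by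
      rw [← k2 k l, ← h2 k l, hN i t ht, hN i0 0 h0]
    exact_mod_cast h6
  rw [← h4]
  exact k3 x hx

/-- **The integral over the product.** -/
theorem bT_prod (hm : 2 ≤ m) {u : Fin (prodS Γ₀ S S').N → Cm (a + m) → Matrix (Fin a) (Fin (a + m)) ℂ}
    {u₁ : Fin S.N → Cm a → Matrix (Fin a) (Fin a) ℂ}
    (h0 : ∀ q, ∀ z ∈ ball (0 : Cm (a + m)) 3, ∀ j k, u q z j (Fin.natAdd a k) = 0)
    (h1 : ∀ i j, ∀ t ∈ ball (0 : Cm a) 3, ∀ y ∈ ball (0 : Cm m) 3,
      fc (u (ix i j) (ap t y)) = u₁ i t)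
    (hu : ∀ q j k, ContinuousOn (fun z => u q z j k) (ball 0 3))
    {x y c : Fin (prodS Γ₀ S S').N → Cm (a + m) → L2 (a + m)}
    (hx : ∀ q, ContinuousOn (x q) (ball 0 3)) (hy : ∀ q, ContinuousOn (y q) (ball 0 3))
    (hc : ∀ q, ContinuousOn (c q) (ball 0 3)) :
    bT (prodS Γ₀ S S') u x y c = ∑ i, ∫ t in S.P i,
      ((‖(u₁ i t).det‖ ^ 2 : ℝ) : ℂ) * bW S' (sl x i t) (sl y i t) (sl c i t) := by
  have e1 : bT (prodS Γ₀ S S') u x y c = (prodS Γ₀ S S').int fun q z =>
      ((‖(fc (u q z)).det‖ ^ 2 : ℝ) : ℂ) * W3 (rs (x q z)) (rs (y q z)) (rs (c q z)) := by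
    unfold bT
    exact H594.TS.int_congr _ fun q z hz => H751.HKT.W4_rs hm (h0 q z hz) _ _ _
  rw [e1, prod_int]
  · refine Finset.sum_congr rfl fun i _ => setIntegral_congr_fun (H840.TS.meas_P S i) fun t ht => ?_
    have ht3 : t ∈ ball (0 : Cm a) 3 := H594.TS.P_sub3 S i ht
    rw [bW, ← H594.TS.int_mul]
    refine H594.TS.int_congr _ fun j y hy => ?_
    rw [h1 i j t ht3 y hy]
    rfl
  · intro q
    refine ContinuousOn.mul ?_ ?_
    · have h2 : ContinuousOn (fun z => (fc (u q z)).det) (ball 0 3) := by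
        simp only [Matrix.det_apply]
        refine continuousOn_finsetSum _ fun π _ => ?_
        refine ContinuousOn.const_smul ?_ _
        exact continuousOn_finsetProd _ fun k _ => hu q _ _
      exact Complex.continuous_ofReal.comp_continuousOn (h2.norm.pow 2)
    · have h3 : ContinuousOn (fun z : Cm (a + m) => H864.HK.W fun k =>
          abc (rs (x q z)) (rs (y q z)) (rs (c q z)) k) (ball 0 3) := by
        refine W_cont' fun k => ?_
        unfold abc
        split_ifs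
        · exact rs_cont.comp_continuousOn (hx q)
        · exact rs_cont.comp_continuousOn (hy q)
        · exact rs_cont.comp_continuousOn (hc q)
      refine h3.congr fun p _ => ?_
      show W3 _ _ _ = _
      rw [W3, H751.HKT.W_eq]

/-- **The radical of the product is rational.** -/
theorem ratRad_prod [T2Space H] [PreconnectedSpace H] [Nonempty H] [ContinuousConstSMul Γ' H]
    [PreconnectedSpace T] [Nonempty T] (hPer : Per2Stmt) (hm : 2 ≤ m)
    {n r : ℕ} (M : Mark2 (prodS Γ₀ S S') n) (M' : Mark2 S' r)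
    {w : Fin (prodS Γ₀ S S').N → Cm (a + m) → Matrix (Fin (a + m)) (Fin (a + m)) ℂ}
    (hw : Cl2 (prodS Γ₀ S S') (kw w)) (hwr : Real2 (prodS Γ₀ S S') (kw w))
    (hk : Kah (prodS Γ₀ S S') w)
    {s : Fin S'.N → Cm m → Matrix (Fin m) (Fin m) ℂ} (hs : Gen2 S' s)
    {u : Fin (prodS Γ₀ S S').N → Cm (a + m) → Matrix (Fin a) (Fin (a + m)) ℂ}
    {u₁ : Fin S.N → Cm a → Matrix (Fin a) (Fin a) ℂ}
    (h0 : ∀ q, ∀ z ∈ ball (0 : Cm (a + m)) 3, ∀ j k, u q z j (Fin.natAdd a k) = 0)
    (h1 : ∀ i j, ∀ t ∈ ball (0 : Cm a) 3, ∀ y ∈ ball (0 : Cm m) 3,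
      fc (u (ix i j) (ap t y)) = u₁ i t)
    (hu : ∀ q j k, ContinuousOn (fun z => u q z j k) (ball 0 3))
    (hu1 : ∀ i j k, ContinuousOn (fun t => u₁ i t j k) (ball 0 3))
    (hne : ∀ i, ∀ t ∈ ball (0 : Cm a) 3, (u₁ i t).det ≠ 0) :
    RatRad (prodS Γ₀ S S') u (kw w) := by
  classical
  obtain ⟨e0⟩ := ‹Nonempty T›
  obtain ⟨-, i0, -, -, -⟩ := S.cover e0
  have _ : Nonempty T := ⟨e0⟩
  have hz : (0 : Cm a) ∈ ball (0 : Cm a) 3 := mem_ball_self (by norm_num)
  have hw' := slw_kah hk i0 hz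
  set w' := slw w i0 0 with hw'd
  have hsw : sl (Γ₀ := Γ₀) (kw w) i0 0 = kw w' := sl_kw w i0 0
  have hc : Cl2 S' (kw w') := by
    rw [← hsw]
    exact sl_cl2 hw i0 hz
  have hcr : Real2 S' (kw w') := by
    rw [← hsw]
    exact sl_real2 hwr i0 hz
  have hB : Nd (Bc M' (kw w')) :=
    nd_of_period (hPer m H Γ' S' w' s r M' hm hw' hs).1
  obtain ⟨J, J', hJ, hcl⟩ := cst_J (by omega) M M' hc hcr hB
  -- the integral over the slices
  have hsl : ∀ i, ∀ t ∈ ball (0 : Cm a) 3, ∀ k l, bW S' (sl (M.b k) i t) (sl (M.b l) i t)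
      (sl (kw w) i t) = ((((J.map (Int.cast : ℤ → ℝ)).transpose * Bc M' (kw w') *
        J.map (Int.cast : ℤ → ℝ)) k l : ℝ) : ℂ) := by
    intro i t ht k l
    have c1 := sl_cl2 (M.closed k) i ht
    have c2 := sl_cl2 (M.closed l) i ht
    have c3 := sl_cl2 hw i ht
    have c4 := sl_real2 hwr i ht
    rw [← H594.HK.bil_cl (by omega) M' c1 c2 c3 c4, Bc_of_cl M' c3 hc (by
      rw [hcl i t ht _ hw, ← hsw, hcl i0 0 hz _ hw]), hcl i t ht _ (M.closed k),
      hcl i t ht _ (M.closed l)]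
    have cb : ∀ k, M.cl (M.b k) = Pi.single k 1 := fun k =>
      H594.TS.cl_eq M (M.closed k) (H594.TS.exact_congr H594.TS.exact_zero fun i z _ => by
        have h5 : ∑ k', (Pi.single k 1 : Fin n → ℂ) k' • M.b k' i z = M.b k i z := by
          rw [Finset.sum_eq_single k]
          · rw [Pi.single_eq_same]
            ext u v
            simp
          · intro k' _ hk'
            rw [Pi.single_eq_of_ne hk']
            ext u v
            simp
          · intro h
            exact absurd (Finset.mem_univ k) h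
        rw [h5]
        ext u v
        show (0 : ℂ) = M.b k i z u v - M.b k i z u v
        rw [sub_self])
    rw [cb, cb, Matrix.mulVec_single_one, Matrix.mulVec_single_one]
    unfold bil
    simp only [Matrix.mul_apply, Matrix.transpose_apply, Matrix.map_apply, Matrix.col_apply,
      Complex.ofReal_sum, Complex.ofReal_mul, Complex.ofReal_intCast]
    rw [Finset.sum_comm]
    refine Finset.sum_congr rfl fun q _ => ?_
    rw [Finset.sum_mul]
    refine Finset.sum_congr rfl fun p _ => ?_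
    ring
  -- the constant
  set cc : ℂ := S.int fun i t => ((‖(u₁ i t).det‖ ^ 2 : ℝ) : ℂ) with hcc
  have hdc : ∀ i, ContinuousOn (fun t => (u₁ i t).det) (ball 0 3) := by
    intro i
    simp only [Matrix.det_apply]
    refine continuousOn_finsetSum _ fun π _ => ?_
    refine ContinuousOn.const_smul ?_ _
    exact continuousOn_finsetProd _ fun k _ => hu1 i _ _
  have hpos : 0 < cc.re := by
    rw [hcc]
    refine H594.TS.int_pos S (D := fun i t => ‖(u₁ i t).det‖ ^ 2) (fun i => (hdc i).norm.pow 2)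
      (fun i z _ => by positivity) (fun i j z hz w hw _ _ => ?_) ⟨i0, 0, hz, ?_⟩
    · have := hne j w hw
      positivity
    · have := hne i0 0 hz
      positivity
  have hbT : ∀ k l, bT (prodS Γ₀ S S') u (M.b k) (M.b l) (kw w) =
      cc * ((((J.map (Int.cast : ℤ → ℝ)).transpose * Bc M' (kw w') *
        J.map (Int.cast : ℤ → ℝ)) k l : ℝ) : ℂ) := by
    intro k l
    rw [bT_prod hm h0 h1 hu (H594.HK.cl2_cont (M.closed k)) (H594.HK.cl2_cont (M.closed l))
      (H594.HK.cl2_cont hw), hcc, mul_comm, ← H594.TS.int_mul]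
    unfold Sheets.int
    refine Finset.sum_congr rfl fun i _ => setIntegral_congr_fun (H840.TS.meas_P S i) fun t ht => ?_
    beta_reduce
    rw [hsl i t (H594.TS.P_sub3 S i ht) k l, mul_comm]
  refine ⟨n, r, M, J, fun x => rad_iff hB hJ (c := cc.re) hpos.ne'
    (Q := Matrix.of fun k l => (bT (prodS Γ₀ S S') u (M.b k) (M.b l) (kw w)).re) (fun k l => ?_) x⟩
  show (bT (prodS Γ₀ S S') u (M.b k) (M.b l) (kw w)).re = _
  rw [hbT, Complex.re_mul_ofReal]

end Vale.Agent.P281.H842.HKT
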