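import Vale.Agent.P281.H842.HKT.CvB
import Vale.Agent.P281.H842.HKT.Rad
import Vale.Agent.P281.H125.HKT.Push
import Vale.Agent.P281.H125.HKT.Rat
import Vale.Agent.P281.H702.HKT.Gen

/-!
# P281, project T-HKT (helper842): the rational radical of `M = T × H`
-/

open Set Filter Metric Vale.Agent.P272.K
open scoped Topology ContDiff Manifold ComplexConjugate

noncomputable section

namespace Vale.Agent.P281.H842.HKT

open Vale.Agent.P281.H64.TK Vale.Agent.P281.H64.TK.TS Vale.Agent.P281.H83.HK Vale.Agent.P281.H83.HKT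
open Vale.Agent.P281.H399.QT (One1 Qs pj quo)
open Vale.Agent.P281.H125.HKT (RowH kah_push hol1_push hol_symm ratRad_of ratRad_mul)
open Vale.Agent.P281.H751.HKT (fc)

section std
variable {a h : ℕ}

/-- The matrix `[ε 1 | 0]`. -/
def uE (ε : ℝ) : Matrix (Fin a) (Fin (a + h)) ℂ :=
  Matrix.of fun r k => Fin.addCases (fun k => if r = k then (ε : ℂ) else 0) (fun _ => 0) k

theorem uE_left (ε : ℝ) (r k : Fin a) :
    (uE ε : Matrix (Fin a) (Fin (a + h)) ℂ) r (Fin.castAdd h k) = if r = k then (ε : ℂ) else 0 := by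
  simp [uE]

theorem uE_right (ε : ℝ) (r : Fin a) (k : Fin h) :
    (uE ε : Matrix (Fin a) (Fin (a + h)) ℂ) r (Fin.natAdd a k) = 0 := by
  simp [uE]

theorem uE_sum (ε : ℝ) (r : Fin a) (v : Cm (a + h)) :
    ∑ k, (uE ε : Matrix (Fin a) (Fin (a + h)) ℂ) r k * v k = ε * p1 v r := by
  rw [Fin.sum_univ_add]
  simp only [uE_left, uE_right, zero_mul, Finset.sum_const_zero, add_zero, ite_mul]
  rw [Finset.sum_ite_eq]
  simp [p1]

theorem fc_uE (ε : ℝ) : fc (uE ε : Matrix (Fin a) (Fin (a + h)) ℂ) = (ε : ℂ) • 1 := by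
  ext r k
  show uE ε r (Fin.castAdd h k) = _
  rw [uE_left, Matrix.smul_apply, Matrix.one_apply, smul_eq_mul]
  split_ifs <;> simp

end std

section
variable {a h : ℕ} {M Γ H : Type} [TopologicalSpace M] [Group Γ] [MulAction Γ M]
  [TopologicalSpace H] [ChartedSpace (Cm h) H]
variable {S : Sheets (a + h) M Γ} {Ψ : Cm a × H → M}
variable {Γ₀ G : Type} [Group G] [Subsingleton G] [MulAction G H] [Group Γ₀] [Subsingleton Γ₀]
  [MulAction Γ₀ (Qs (KP Ψ) (Cm a) × H)]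

/-- The 1-forms `dz_1, ..., dz_a` on `T × H`. -/
theorem hol1_std {ε : ℝ} {N : ℕ} {x : Fin N → Cm a} (D : TorData (lamP Ψ) ε N x)
    (S' : Sheets h H G) :
    Hol1 (prodS Γ₀ (quo (torS D)) S') (fun _ _ => (uE ε : Matrix (Fin a) (Fin (a + h)) ℂ)) where
  hol i j k := differentiableOn_const _
  closed i z hz j k l := by
    simp [dd]
  change q q' z hz z' hz' θ h1 h2 h3 := by
    obtain ⟨i, j, rfl⟩ := ix_surj q
    obtain ⟨i', j', rfl⟩ := ix_surj q'
    obtain ⟨hz1, -⟩ := (mem_ball_iff z' 3).1 hz'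
    -- the first coordinates
    have e1 : ∀ᶠ u in 𝓝 z, pj (KP Ψ) (tσ ε x i (p1 u)) = pj (KP Ψ) ((torS D).σ i' (p1 (θ u))) := by
      filter_upwards [h3] with u hu
      rw [prodS_σ, prodS_σ] at hu
      exact congrArg (fun p : Qs (KP Ψ) (Cm a) × H => p.1) hu
    have c1 : ContinuousAt (fun u : Cm (a + h) => tσ ε x i (p1 u)) z :=
      ((tσ_cont ε x i).continuousAt).comp (an_p1 z).continuousAt
    have c2 : ContinuousAt (fun u : Cm (a + h) => p1 (θ u)) z :=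
      ((an_p1 (θ z)).fun_comp h1).continuousAt
    obtain ⟨γ, hγ⟩ := H399.QT.ev_lift (torS D) (a := fun u : Cm (a + h) => tσ ε x i (p1 u)) (j := i')
      (z' := p1 z') c1 hz1 c2 (by simp only [h2]) e1
    have hε : (ε : ℂ) ≠ 0 := Complex.ofReal_ne_zero.2 D.pos.ne'
    have e2 : (fun u => p1 (θ u)) =ᶠ[𝓝 z] fun u => p1 u + (ε : ℂ)⁻¹ • (x i - x i' - lamP Ψ γ) := by
      filter_upwards [hγ] with u hu
      rw [D.act] at hu
      have hu' : x i + (ε : ℂ) • p1 u = x i' + (ε : ℂ) • p1 (θ u) + lamP Ψ γ := hu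
      have h5 : (ε : ℂ) • p1 (θ u) = (ε : ℂ) • p1 u + (x i - x i' - lamP Ψ γ) := by
        have h6 : (ε : ℂ) • p1 (θ u) = (x i' + (ε : ℂ) • p1 (θ u) + lamP Ψ γ) - x i' - lamP Ψ γ := by
          abel
        rw [h6, ← hu']
        abel
      have h7 := congrArg (fun w => (ε : ℂ)⁻¹ • w) h5
      simp only [smul_add, smul_smul, inv_mul_cancel₀ hε, one_smul] at h7
      exact h7
    -- the derivative
    let P : Cm (a + h) →L[ℂ] Cm a := (ContinuousLinearMap.fst ℂ (Cm a) (Cm h)).comp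
      (pe a h : Cm (a + h) →L[ℂ] Cm a × Cm h)
    have d1 : HasFDerivAt (fun u => p1 (θ u)) (P.comp (fderiv ℂ θ z)) z :=
      (P.hasFDerivAt (x := θ z)).comp z h1.differentiableAt.hasFDerivAt
    have d2 : HasFDerivAt (fun u => p1 u + (ε : ℂ)⁻¹ • (x i - x i' - lamP Ψ γ)) P z :=
      (P.hasFDerivAt (x := z)).add_const _
    have d3 : P.comp (fderiv ℂ θ z) = P := (d1.congr_of_eventuallyEq e2.symm).unique d2
    ext r k
    rw [Matrix.mul_apply]
    have d4 : ∀ l, H64.TK.jac θ z l k = fderiv ℂ θ z (Pi.single k 1) l := fun l => rfl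
    simp only [d4]
    rw [uE_sum]
    have d5 : p1 (fderiv ℂ θ z (Pi.single k 1)) = p1 (Pi.single k 1 : Cm (a + h)) :=
      congrArg (fun f : Cm (a + h) →L[ℂ] Cm a => f (Pi.single k 1)) d3
    rw [d5, ← uE_sum ε r]
    simp [Pi.single_apply]

end

/-- The relation of the 1-forms, in the other direction. -/
theorem rowH_symm {d a : ℕ} {E Γ E' Γ' : Type} [TopologicalSpace E] [Group Γ] [MulAction Γ E]
    [TopologicalSpace E'] [Group Γ'] [MulAction Γ' E'] [Subsingleton Γ] [Subsingleton Γ']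
    {S : Sheets d E Γ} {S' : Sheets d E' Γ'} {τ : E ≃ₜ E'} (hτ : H511.TS.Hol S S' τ)
    {u : Fin S.N → Cm d → Matrix (Fin a) (Fin d) ℂ}
    {u' : Fin S'.N → Cm d → Matrix (Fin a) (Fin d) ℂ} (h : RowH S' S τ.symm u' u) :
    RowH S S' τ u u' := by
  intro i j z hz z' hz' θ hθ
  have he : τ.symm (S'.σ j z') = S.σ i z := by
    rw [τ.symm_apply_eq, hθ.2.2.self_of_nhds, hθ.2.1]
  obtain ⟨χ, hχ, -⟩ := hol_symm hτ j i z' hz' z hz he
  rw [h j i z' hz' z hz χ hχ, Matrix.mul_assoc]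
  have h1 : (fun v => χ (θ v)) =ᶠ[𝓝 z] fun v => v := by
    have k1 : ∀ᶠ v in 𝓝 z, τ.symm (S'.σ j (θ v)) = S.σ i (χ (θ v)) :=
      hθ.1.continuousAt.eventually (by rw [hθ.2.1]; exact hχ.2.2)
    have k2 : ∀ᶠ v in 𝓝 z, χ (θ v) ∈ ball (0 : Cm d) 3 := by
      have k3 : ContinuousAt (fun v => χ (θ v)) z :=
        ContinuousAt.comp (f := θ) (by rw [hθ.2.1]; exact hχ.1.continuousAt) hθ.1.continuousAt
      refine k3.eventually (isOpen_ball.mem_nhds ?_)
      show χ (θ z) ∈ ball (0 : Cm d) 3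
      rw [hθ.2.1, hχ.2.1]
      exact hz
    filter_upwards [k1, k2, hθ.2.2, isOpen_ball.mem_nhds hz] with v v1 v2 v3 v4
    rw [← v3, τ.symm_apply_apply] at v1
    exact ((S.inj i v v4 _ v2 1 (by rw [one_smul]; exact v1)).2).symm
  have h2 : H64.TK.jac χ z' * H64.TK.jac θ z = 1 := by
    rw [← H22.TS.jac_comp hθ.2.1 hχ.1.differentiableAt hθ.1.differentiableAt, ← H22.TS.jac_id z]
    exact H22.TS.jac_congr h1
  rw [h2, Matrix.mul_one]

theorem ratRad_congr {d a : ℕ} {E Γ : Type} [TopologicalSpace E] [Group Γ] [MulAction Γ E]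
    [Subsingleton Γ] {S : Sheets d E Γ} {u u' : Fin S.N → Cm d → Matrix (Fin a) (Fin d) ℂ}
    (e : ∀ i, ∀ z ∈ ball (0 : Cm d) 3, u i z = u' i z) {c : Fin S.N → Cm d → L2 d}
    (h : RatRad S u c) : RatRad S u' c := by
  obtain ⟨n, m, M, J, hJ⟩ := h
  refine ⟨n, m, M, J, fun x => ?_⟩
  rw [← hJ x]
  have k : ∀ k l, bT S u' (M.b k) (M.b l) c = bT S u (M.b k) (M.b l) c := fun k l =>
    H594.TS.int_congr S fun i z hz => by rw [e i z hz]
  simp only [k]

/-- a trivial action -/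
@[reducible] def trivA (X : Type) : MulAction One1 X where
  smul _ x := x
  one_smul _ := rfl
  mul_smul _ _ _ := rfl

/-- **The radical of `M = T × H` is rational.** -/
theorem ratRad_cvrA (mark : MarkStmt) (hPer : Per2Stmt) (fo : FormsStmt) {a h : ℕ} (hh : 2 ≤ h)
    {M Γ H : Type} [TopologicalSpace M] [T2Space M] [Group Γ] [Subsingleton Γ] [MulAction Γ M]
    [ContinuousConstSMul Γ M] [TopologicalSpace H] [T2Space H] [CompactSpace H]
    [PreconnectedSpace H] [Nonempty H] [ChartedSpace (Cm h) H] [IsManifold 𝓘(ℂ, Cm h) ω H]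
    {S : Sheets (a + h) M Γ} {Ψ : Cm a × H → M} (hΨ : CvrA S Ψ) (hH : Sympl h H)
    {u : Fin S.N → Cm (a + h) → Matrix (Fin a) (Fin (a + h)) ℂ}
    (span1 : ∀ v : Fin S.N → Cm (a + h) → Matrix (Fin 1) (Fin (a + h)) ℂ, Hol1 S v →
      ∃ c : Matrix (Fin 1) (Fin a) ℂ, ∀ i, ∀ z ∈ ball (0 : Cm (a + h)) 3, v i z = c * u i z)
    {w : Fin S.N → Cm (a + h) → Matrix (Fin (a + h)) (Fin (a + h)) ℂ} (hw : Kah S w) :
    RatRad S u (kw w) := by
  classical
  let iH : MulAction One1 H := trivA H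
  have cH : ContinuousConstSMul One1 H := ⟨fun _ => continuous_id⟩
  obtain ⟨N', y, r, D'⟩ := exists_sh (h := h) (H := H)
  obtain ⟨ε, N, x, D⟩ := exists_torP hΨ
  have t2T : T2Space (Qs (KP Ψ) (Cm a)) := H399.QT.t2_quo (torS D)
  have hτ := hΨ.tau_hol (Γ₀ := One1) (G := One1) D D'
  have hu' := hol1_std (Γ₀ := One1) (G := One1) D (shS D')
  obtain ⟨u₀, hu₀, hrow⟩ := hol1_push (hol_symm hτ) hu'
  have hrow' := rowH_symm hτ hrow
  obtain ⟨w', hw', hpull⟩ := kah_push hτ hw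
  obtain ⟨s, hs, -⟩ := H22.HK.gen2 (shS_bih (K := One1) D') (by omega) hH
  obtain ⟨n, ⟨M₁⟩⟩ := mark _ _ _ (prodS One1 (quo (torS D)) (shS (K := One1) D')) (by omega)
  obtain ⟨n', ⟨M₂⟩⟩ := mark _ _ _ (shS (K := One1) D') (by omega)
  obtain ⟨-, f2, -⟩ := fo _ _ _ (prodS One1 (quo (torS D)) (shS (K := One1) D')) (by omega)
  obtain ⟨-, g2, -⟩ := fo _ _ _ S (by omega)
  obtain ⟨hc', hr'⟩ := f2 w' hw'
  obtain ⟨hc, -⟩ := g2 w hw
  have hε : (ε : ℂ) ≠ 0 := Complex.ofReal_ne_zero.2 D.pos.ne'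
  have h1 : RatRad (prodS One1 (quo (torS D)) (shS (K := One1) D'))
      (fun _ _ => (uE ε : Matrix (Fin a) (Fin (a + h)) ℂ)) (kw w') := by
    refine ratRad_prod hPer hh M₁ M₂ hc' hr' hw' hs (u₁ := fun _ _ => (ε : ℂ) • 1)
      (fun _ _ _ j k => uE_right ε j k) (fun _ _ _ _ _ _ => fc_uE ε)
      (fun _ _ _ => continuousOn_const) (fun _ _ _ => continuousOn_const) fun _ _ _ => ?_
    rw [Matrix.det_smul, Matrix.det_one, mul_one]
    exact pow_ne_zero _ hε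
  have h2 : RatRad S u₀ (kw w) :=
    ratRad_of (by omega) (H511.TS.dif_of_hol hτ) hu₀ hu' (RowH.row hτ hrow') hc hc' hpull h1
  -- the change of basis
  have h3 : ∀ r, ∃ c : Matrix (Fin 1) (Fin a) ℂ, ∀ i, ∀ z ∈ ball (0 : Cm (a + h)) 3,
      (Matrix.of fun (_ : Fin 1) k => u₀ i z r k) = c * u i z := fun r =>
    span1 (fun i z => Matrix.of fun (_ : Fin 1) k => u₀ i z r k)
      { hol := fun i _ k => hu₀.hol i r k
        closed := fun i z hz _ k l => hu₀.closed i z hz r k l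
        change := fun i j z hz z' hz' θ t1 t2 t3 => by
          rw [hu₀.change i j z hz z' hz' θ t1 t2 t3]
          ext _ k
          simp [Matrix.mul_apply] }
  choose c hcr using h3
  set C : Matrix (Fin a) (Fin a) ℂ := Matrix.of fun r k => c r 0 k with hC
  have h4 : ∀ i, ∀ z ∈ ball (0 : Cm (a + h)) 3, u₀ i z = C * u i z := by
    intro i z hz
    ext r k
    have := congrFun (congrFun (hcr r i z hz) 0) k
    rw [Matrix.mul_apply] at this ⊢
    exact this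
  have h5 : C.det ≠ 0 := by
    intro h0
    obtain ⟨v, hv, hvC⟩ := Matrix.exists_vecMul_eq_zero_iff.2 h0
    obtain ⟨x0⟩ := ‹Nonempty H›
    obtain ⟨j, z, hz, -⟩ := cov1 S (Ψ (0, x0))
    obtain ⟨q, z', hz', hq⟩ := H125.HKT.cov (prodS One1 (quo (torS D)) (shS (K := One1) D'))
      (hΨ.tau (S.σ j z))
    obtain ⟨θ, hθ, hdet⟩ := hτ j q z hz z' hz' hq.symm
    have e1 := hrow' j q z hz z' hz' θ hθ
    have e2 : Matrix.vecMul v (u₀ j z) = 0 := by
      rw [h4 j z hz, ← Matrix.vecMul_vecMul, hvC, Matrix.zero_vecMul]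
    rw [e1, ← Matrix.vecMul_vecMul] at e2
    have e3 : Matrix.vecMul v (uE ε : Matrix (Fin a) (Fin (a + h)) ℂ) = 0 :=
      Matrix.eq_zero_of_vecMul_eq_zero hdet e2
    refine hv ?_
    funext k
    have e4 := congrFun e3 (Fin.castAdd h k)
    have e5 : Matrix.vecMul v (uE ε : Matrix (Fin a) (Fin (a + h)) ℂ) (Fin.castAdd h k) =
        v k * ε := by
      show ∑ r, v r * (uE ε : Matrix (Fin a) (Fin (a + h)) ℂ) r (Fin.castAdd h k) = _
      simp only [uE_left, mul_ite, mul_zero]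
      rw [Finset.sum_ite_eq']
      simp
    rw [e5] at e4
    exact (mul_eq_zero.1 e4).resolve_right hε
  have h6 : (C⁻¹).det ≠ 0 := by
    rw [Matrix.det_nonsing_inv, Ring.inverse_eq_inv']
    exact inv_ne_zero h5
  refine ratRad_congr (fun i z hz => ?_) (ratRad_mul (g := C⁻¹) (by omega) h6 h2)
  rw [h4 i z hz, ← Matrix.mul_assoc, Matrix.nonsing_inv_mul _ (isUnit_iff_ne_zero.2 h5),
    Matrix.one_mul]

/-- The same, in the letters of helper702. -/
theorem ratRad_cvr (mark : MarkStmt) (hPer : Per2Stmt) (fo : FormsStmt) {d a h : ℕ}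
    (hd : d = a + h) (hh : 2 ≤ h)
    {M Γ H : Type} [TopologicalSpace M] [T2Space M] [Group Γ] [Subsingleton Γ] [MulAction Γ M]
    [ContinuousConstSMul Γ M] [TopologicalSpace H] [T2Space H] [CompactSpace H]
    [PreconnectedSpace H] [Nonempty H] [ChartedSpace (Cm h) H] [IsManifold 𝓘(ℂ, Cm h) ω H]
    {S : Sheets d M Γ} {Ψ : Cm a × H → M} (hΨ : H702.HKT.Cvr h S Ψ) (hH : Sympl h H)
    {u : Fin S.N → Cm d → Matrix (Fin a) (Fin d) ℂ}
    (span1 : ∀ v : Fin S.N → Cm d → Matrix (Fin 1) (Fin d) ℂ, Hol1 S v →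
      ∃ c : Matrix (Fin 1) (Fin a) ℂ, ∀ i, ∀ z ∈ ball (0 : Cm d) 3, v i z = c * u i z) :
    ∀ w : Fin S.N → Cm d → Matrix (Fin d) (Fin d) ℂ, Kah S w → RatRad S u (kw w) := by
  subst hd
  intro w hw
  exact ratRad_cvrA mark hPer fo hh ⟨hΨ.surj, hΨ.eqv, hΨ.cpt, hΨ.loc⟩ hH span1 hw

end Vale.Agent.P281.H842.HKT
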