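import Vale.Agent.P281.H842.HKT.Fub
import Vale.Agent.P281.H842.HKT.Cst
import Vale.Agent.P281.H125.HKT.Sl
import Vale.Agent.P281.H834.HK.BmC
import Vale.Agent.P281.H594.HK.Per0

/-!
# P281, project T-HKT (helper842), P4: the integral over the slices depends continuously on the slice
-/

open Set Filter Metric MeasureTheory Vale.Agent.P272.K
open scoped Topology ContDiff ComplexConjugate ComplexOrder

noncomputable section

namespace Vale.Agent.P281.H842.HKT

open Vale.Agent.P281.H64.TK Vale.Agent.P281.H64.TK.TS Vale.Agent.P281.H83.HK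
open Vale.Agent.P281.H751.HKT (rs inc)
open Vale.Agent.P281.H125.HKT (sl)

variable {a m : ℕ}

theorem par_cont {F : Cm a → Cm m → ℂ}
    (hF : ContinuousOn (fun q : Cm a × Cm m => F q.1 q.2) (ball 0 3 ×ˢ ball 0 3)) {P : Set (Cm m)}
    (hP : MeasurableSet P) (hP1 : P ⊆ ball 0 1) :
    ContinuousOn (fun t => ∫ y in P, F t y) (ball 0 3) := by
  intro t₀ ht₀
  obtain ⟨ε, hε, hK⟩ := Metric.nhds_basis_closedBall.mem_iff.1 (isOpen_ball.mem_nhds ht₀)
  have h13 : closedBall (0 : Cm m) 1 ⊆ ball 0 3 := closedBall_subset_ball (by norm_num)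
  obtain ⟨C, hC⟩ := ((isCompact_closedBall t₀ ε).prod
    (isCompact_closedBall (0 : Cm m) 1)).exists_bound_of_continuousOn
    (hF.mono (prod_mono hK h13))
  refine continuousWithinAt_of_dominated (bound := fun _ => C) ?_ ?_ ?_ ?_
  · filter_upwards [self_mem_nhdsWithin] with t ht
    have h1 : ContinuousOn (F t) P := by
      have h2 : ContinuousOn (fun y : Cm m => (t, y)) P := by fun_prop
      exact hF.comp h2 fun y hy => ⟨ht, h13 (ball_subset_closedBall (hP1 hy))⟩
    exact h1.aestronglyMeasurable hP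
  · have h3 : ∀ᶠ t in 𝓝[ball 0 3] t₀, t ∈ closedBall t₀ ε :=
      mem_nhdsWithin_of_mem_nhds (closedBall_mem_nhds t₀ hε)
    filter_upwards [h3] with t ht
    refine (ae_restrict_iff' hP).2 (Eventually.of_forall fun y hy => ?_)
    exact hC (t, y) ⟨ht, ball_subset_closedBall (hP1 hy)⟩
  · have h4 : volume P ≠ ⊤ := ((measure_mono hP1).trans_lt measure_ball_lt_top).ne
    exact integrableOn_const h4
  · refine (ae_restrict_iff' hP).2 (Eventually.of_forall fun y hy => ?_)
    have h2 : ContinuousOn (fun t : Cm a => (t, y)) (ball 0 3) := by fun_prop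
    exact (hF.comp h2 fun t ht => ⟨ht, h13 (ball_subset_closedBall (hP1 hy))⟩) t₀ ht₀

theorem W_cont' {X : Type} [TopologicalSpace X] {α : Fin m → X → L2 m} {s : Set X}
    (h : ∀ k, ContinuousOn (α k) s) : ContinuousOn (fun z => H864.HK.W fun k => α k z) s := by
  unfold H864.HK.W H864.HK.Wv H864.HK.pr
  refine continuousOn_const.mul (continuousOn_finsetSum _ fun π _ => continuousOn_const.mul
    (continuousOn_finsetProd _ fun k _ => ?_))
  exact ((h k).clm_apply continuousOn_const).clm_apply continuousOn_const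

section
variable {T H Γ Γ' Γ₀ : Type} [TopologicalSpace T] [TopologicalSpace H] [Group Γ] [Group Γ']
  [Subsingleton Γ] [Subsingleton Γ'] [MulAction Γ T] [MulAction Γ' H] [Group Γ₀] [Subsingleton Γ₀]
  [MulAction Γ₀ (T × H)] {S : Sheets a T Γ} {S' : Sheets m H Γ'}

theorem rs_lin : ∃ R : L2 (a + m) →L[ℝ] L2 m, ∀ x, R x = rs x := by
  refine ⟨LinearMap.toContinuousLinearMap
    { toFun := rs
      map_add' := fun x y => ?_
      map_smul' := fun c x => ?_ }, fun x => rfl⟩
  · ext u v
    rfl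
  · ext u v
    rfl

theorem rs_cont : Continuous (rs : L2 (a + m) → L2 m) := by
  obtain ⟨R, hR⟩ := rs_lin (a := a) (m := m)
  have h : (rs : L2 (a + m) → L2 m) = fun x => R x := funext fun x => (hR x).symm
  rw [h]
  exact R.continuous

theorem x_ap_cont {x : Fin (prodS Γ₀ S S').N → Cm (a + m) → L2 (a + m)}
    (hx : ∀ q, ContinuousOn (x q) (ball 0 3)) (q : Fin (prodS Γ₀ S S').N) :
    ContinuousOn (fun p : Cm a × Cm m => x q (ap p.1 p.2)) (ball 0 3 ×ˢ ball 0 3) :=
  (hx q).comp ap_cont.continuousOn fun _ hp => ap_mem hp.1 hp.2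

theorem bW_sl_cont {x : Fin (prodS Γ₀ S S').N → Cm (a + m) → L2 (a + m)}
    (hx : ∀ q, ContinuousOn (x q) (ball 0 3)) {b c : Fin S'.N → Cm m → L2 m}
    (hb : ∀ j, ContinuousOn (b j) (ball 0 3)) (hc : ∀ j, ContinuousOn (c j) (ball 0 3))
    (i : Fin S.N) : ContinuousOn (fun t => bW S' (sl x i t) b c) (ball 0 3) := by
  unfold bW Sheets.int
  refine continuousOn_finsetSum _ fun j _ => ?_
  refine par_cont (F := fun t y => W3 (sl x i t j y) (b j y) (c j y)) ?_
    (H840.TS.meas_P S' j) (H840.TS.P_sub S' j)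
  have h1 : ContinuousOn (fun p : Cm a × Cm m => rs (x (ix i j) (ap p.1 p.2)))
      (ball 0 3 ×ˢ ball 0 3) := rs_cont.comp_continuousOn (x_ap_cont hx _)
  have h2 : ContinuousOn (fun p : Cm a × Cm m => b j p.2) (ball 0 3 ×ˢ ball 0 3) :=
    (hb j).comp continuous_snd.continuousOn fun _ hp => hp.2
  have h3 : ContinuousOn (fun p : Cm a × Cm m => c j p.2) (ball 0 3 ×ˢ ball 0 3) :=
    (hc j).comp continuous_snd.continuousOn fun _ hp => hp.2
  have h : ContinuousOn (fun p : Cm a × Cm m => H864.HK.W fun k =>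
      abc (rs (x (ix i j) (ap p.1 p.2))) (b j p.2) (c j p.2) k) (ball 0 3 ×ˢ ball 0 3) := by
    refine W_cont' fun k => ?_
    unfold abc
    split_ifs
    · exact h1
    · exact h2
    · exact h3
  refine h.congr fun p _ => ?_
  show W3 _ _ _ = _
  rw [W3, H751.HKT.W_eq]
  rfl

end

end Vale.Agent.P281.H842.HKT
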