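import Vale.Agent.P281.H842.HKT.Par
import Vale.Agent.P281.H83.HKT.Defs
import Vale.Agent.P281.H713.DefsK

/-!
# P281, project T-HKT (helper842), P7: algebra for the rational radical
-/

open Set Filter Metric MeasureTheory Vale.Agent.P272.K Vale.Agent.P281.H713
open scoped Topology ContDiff ComplexConjugate ComplexOrder

noncomputable section

namespace Vale.Agent.P281.H842.HKT

open Vale.Agent.P281.H64.TK Vale.Agent.P281.H64.TK.TS Vale.Agent.P281.H83.HK Vale.Agent.P281.H83.HKT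
open Vale.Agent.P281.H751.HKT (rs inc fc)

/-- `B` is nondegenerate. -/
def Nd {r : ℕ} (B : Matrix (Fin r) (Fin r) ℝ) : Prop :=
  ∀ x : Fin r → ℝ, (∀ l, ∑ k, x k * B k l = 0) → x = 0

theorem nd_of_period {r : ℕ} {B : Matrix (Fin r) (Fin r) ℝ} {w : Fin r → ℝ} {p : Fin r → ℂ}
    (h : IsK3Period B w p) : Nd B := by
  intro x hx
  by_contra h0
  have h1 : ∀ y : Fin r → ℂ, bil B (fun i => (x i : ℂ)) y = 0 := by
    intro y
    unfold bil
    rw [Finset.sum_comm]
    refine Finset.sum_eq_zero fun l _ => ?_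
    have h2 : ∑ k, (B k l : ℂ) * (x k : ℂ) * y l = (((∑ k, x k * B k l : ℝ)) : ℂ) * y l := by
      rw [Complex.ofReal_sum, Finset.sum_mul]
      exact Finset.sum_congr rfl fun k _ => by push_cast; ring
    refine h2.trans ?_
    rw [hx l]
    simp
  have h3 := h.neg x h0 (h1 _) (h1 _)
  rw [h1] at h3
  simp at h3

theorem nd_det {r : ℕ} {B : Matrix (Fin r) (Fin r) ℝ} (h : Nd B) : B.det ≠ 0 := by
  intro h0
  obtain ⟨v, hv, h1⟩ := Matrix.exists_vecMul_eq_zero_iff.2 h0
  exact hv (h v fun l => congrFun h1 l)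

/-- the linear algebra -/
theorem rad_iff {n r : ℕ} {B : Matrix (Fin r) (Fin r) ℝ} (hB : Nd B) {J : Matrix (Fin r) (Fin n) ℤ}
    {J' : Matrix (Fin n) (Fin r) ℤ} (hJ : J * J' = 1) {Q : Matrix (Fin n) (Fin n) ℝ} {c : ℝ}
    (hc : c ≠ 0) (hQ : ∀ k l, Q k l = c * ((J.map (Int.cast : ℤ → ℝ)).transpose * B *
      J.map (Int.cast : ℤ → ℝ)) k l) (x : Fin n → ℝ) :
    (∀ l, ∑ k, x k * Q k l = 0) ↔ (J.map (Int.cast : ℤ → ℝ)).mulVec x = 0 := by
  set R : Matrix (Fin r) (Fin n) ℝ := J.map (Int.cast : ℤ → ℝ) with hR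
  have hR' : R * J'.map (Int.cast : ℤ → ℝ) = 1 := by
    have h1 := congrArg (fun A : Matrix (Fin r) (Fin r) ℤ => A.map (Int.castRingHom ℝ)) hJ
    simp only [Matrix.map_mul] at h1
    rw [Matrix.map_one _ (map_zero _) (map_one _)] at h1
    exact h1
  have e : ∀ l, ∑ k, x k * Q k l = c * Matrix.vecMul (Matrix.vecMul (R.mulVec x) B) R l := by
    intro l
    have h2 : Matrix.vecMul (Matrix.vecMul (R.mulVec x) B) R =
        Matrix.vecMul x (R.transpose * B * R) := by
      rw [← Matrix.vecMul_transpose, Matrix.vecMul_vecMul, Matrix.vecMul_vecMul, Matrix.mul_assoc]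
    rw [h2]
    show _ = c * ∑ k, x k * (R.transpose * B * R) k l
    rw [Finset.mul_sum]
    refine Finset.sum_congr rfl fun k _ => ?_
    rw [hQ]
    ring
  constructor
  · intro h
    have h1 : Matrix.vecMul (Matrix.vecMul (R.mulVec x) B) R = 0 := by
      funext l
      have h2 := h l
      rw [e l] at h2
      exact (mul_eq_zero.1 h2).resolve_left hc
    have h3 : Matrix.vecMul (R.mulVec x) B = 0 := by
      have h4 := congrArg (fun v => Matrix.vecMul v (J'.map (Int.cast : ℤ → ℝ))) h1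
      simp only [Matrix.vecMul_vecMul, Matrix.zero_vecMul] at h4
      rwa [Matrix.mul_assoc, hR', Matrix.mul_one] at h4
    exact hB _ fun l => congrFun h3 l
  · intro h l
    rw [e l, h]
    simp

end Vale.Agent.P281.H842.HKT
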