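import Vale.Agent.P281.H22.HK.Xfer2
import Vale.Agent.P281.H399.QT.Quo

/-!
# P281, project T-HKT (helper842), T2: the sheets of a compact complex manifold
-/

open Set Filter Metric Vale.Agent.P272.K
open scoped Topology ContDiff Manifold ComplexConjugate

noncomputable section

namespace Vale.Agent.P281.H842.HKT

open Vale.Agent.P281.H64.TK Vale.Agent.P281.H64.TK.TS Vale.Agent.P281.H83.HK
open Vale.Agent.P281.H399.QT (One1)

variable {h : ℕ} {H : Type} [TopologicalSpace H] [ChartedSpace (Cm h) H]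

theorem ch_an [IsManifold 𝓘(ℂ, Cm h) ω H] {e e' : Chart h H} (he : e ∈ atlas (Cm h) H)
    (he' : e' ∈ atlas (Cm h) H) {x : H} (hx : x ∈ e.source) (hx' : x ∈ e'.source) :
    AnalyticAt ℂ (fun u => e' (e.symm u)) (e x) := by
  have h1 : ContMDiffAt 𝓘(ℂ, Cm h) 𝓘(ℂ, Cm h) ω e' (e.symm (e x)) := by
    rw [e.left_inv hx]
    exact contMDiffAt_of_mem_maximalAtlas (IsManifold.subset_maximalAtlas he') hx'
  have h0 : ContMDiffAt 𝓘(ℂ, Cm h) 𝓘(ℂ, Cm h) ω e.symm (e x) :=
    contMDiffAt_symm_of_mem_maximalAtlas (IsManifold.subset_maximalAtlas he) (e.map_source hx)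
  have h2 : ContMDiffAt 𝓘(ℂ, Cm h) 𝓘(ℂ, Cm h) ω (fun u => e' (e.symm u)) (e x) :=
    ContMDiffAt.comp (e x) h1 h0
  exact (contMDiffAt_iff_contDiffAt.1 h2).analyticAt

/-- The coordinates of the sheet at `x`. -/
def hc (x : H) (r : ℝ) (z : Cm h) : Cm h := chartAt (Cm h) x x + (r : ℂ) • z

/-- The sheet at `x`. -/
def hσ (x : H) (r : ℝ) (z : Cm h) : H := (chartAt (Cm h) x).symm (hc x r z)

variable (h) in
/-- Data of the sheets. -/
structure ShData (N : ℕ) (x : Fin N → H) (r : Fin N → ℝ) : Prop where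
  pos : ∀ i, 0 < r i
  sub : ∀ i, ∀ z ∈ ball (0 : Cm h) 3, hc (x i) (r i) z ∈ (chartAt (Cm h) (x i)).target
  cov : ∀ e : H, ∃ (i : Fin N) (z : Cm h), ‖z‖ < 1 ∧ hσ (x i) (r i) z = e

theorem hc_cont (x : H) (r : ℝ) : Continuous (hc (h := h) x r) := by
  unfold hc
  fun_prop

theorem hc_map (x : H) {r : ℝ} (hr : 0 < r) (z : Cm h) :
    Filter.map (hc (h := h) x r) (𝓝 z) = 𝓝 (hc x r z) := by
  have hε : (r : ℂ) ≠ 0 := Complex.ofReal_ne_zero.2 hr.ne'
  exact ((Homeomorph.smulOfNeZero (r : ℂ) hε).trans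
    (Homeomorph.addLeft (chartAt (Cm h) x x))).map_nhds_eq z

theorem hc_inj (x : H) {r : ℝ} (hr : 0 < r) {z w : Cm h} (e : hc (h := h) x r z = hc x r w) :
    z = w := by
  have hε : (r : ℂ) ≠ 0 := Complex.ofReal_ne_zero.2 hr.ne'
  exact smul_right_injective _ hε (add_left_cancel e)

/-- the inverse of the coordinates -/
def hi (x : H) (r : ℝ) (v : Cm h) : Cm h := (r : ℂ)⁻¹ • (v - chartAt (Cm h) x x)

theorem hc_hi (x : H) {r : ℝ} (hr : 0 < r) (v : Cm h) : hc (h := h) x r (hi x r v) = v := by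
  have hε : (r : ℂ) ≠ 0 := Complex.ofReal_ne_zero.2 hr.ne'
  rw [hc, hi, smul_smul, mul_inv_cancel₀ hε, one_smul]
  abel

theorem hi_hc (x : H) {r : ℝ} (hr : 0 < r) (z : Cm h) : hi (h := h) x r (hc x r z) = z :=
  hc_inj x hr (hc_hi x hr _)

theorem hi_an (x : H) (r : ℝ) (v : Cm h) : AnalyticAt ℂ (hi (h := h) x r) v := by
  exact (((r : ℂ)⁻¹ • ContinuousLinearMap.id ℂ (Cm h)).analyticAt
    (v - chartAt (Cm h) x x)).fun_comp (f := fun v : Cm h => v - chartAt (Cm h) x x)
    (analyticAt_id.sub analyticAt_const)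

theorem hc_an (x : H) (r : ℝ) (v : Cm h) : AnalyticAt ℂ (hc (h := h) x r) v := by
  exact analyticAt_const.add (((r : ℂ) • ContinuousLinearMap.id ℂ (Cm h)).analyticAt v)

variable {N : ℕ} {x : Fin N → H} {r : Fin N → ℝ}

theorem ShData.mem_source (D : ShData h N x r) (i : Fin N) {z : Cm h} (hz : z ∈ ball (0 : Cm h) 3) :
    hσ (x i) (r i) z ∈ (chartAt (Cm h) (x i)).source :=
  (chartAt (Cm h) (x i)).map_target (D.sub i z hz)

theorem ShData.chart (D : ShData h N x r) (i : Fin N) {z : Cm h} (hz : z ∈ ball (0 : Cm h) 3) :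
    chartAt (Cm h) (x i) (hσ (x i) (r i) z) = hc (x i) (r i) z :=
  (chartAt (Cm h) (x i)).right_inv (D.sub i z hz)

theorem ShData.contOn (D : ShData h N x r) (i : Fin N) :
    ContinuousOn (hσ (h := h) (x i) (r i)) (ball 0 3) :=
  (chartAt (Cm h) (x i)).continuousOn_symm.comp (hc_cont _ _).continuousOn
    fun z hz => D.sub i z hz

theorem ShData.map (D : ShData h N x r) (i : Fin N) {z : Cm h} (hz : z ∈ ball (0 : Cm h) 3) :
    Filter.map (hσ (h := h) (x i) (r i)) (𝓝 z) = 𝓝 (hσ (x i) (r i) z) := by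
  have e1 : hσ (h := h) (x i) (r i) = (chartAt (Cm h) (x i)).symm ∘ hc (x i) (r i) := rfl
  rw [e1, ← Filter.map_map, hc_map _ (D.pos i)]
  exact (chartAt (Cm h) (x i)).symm.map_nhds_eq (D.sub i z hz)

/-- **The sheets of a compact complex manifold.** -/
def shS [T2Space H] [IsManifold 𝓘(ℂ, Cm h) ω H] {K : Type} [Group K] [Subsingleton K]
    [MulAction K H] (D : ShData h N x r) : Sheets h H K where
  N := N
  σ i := hσ (x i) (r i)
  map_nhds i z hz := D.map i hz
  inj i z hz w hw γ e := by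
    rw [Subsingleton.elim γ 1, one_smul] at e
    have e1 := congrArg (chartAt (Cm h) (x i)) e
    rw [D.chart i hz, D.chart i hw] at e1
    exact ⟨Subsingleton.elim _ _, hc_inj _ (D.pos i) e1⟩
  cover e := by
    obtain ⟨i, z, hz, h1⟩ := D.cov e
    exact ⟨1, i, z, hz, by rw [one_smul, h1]⟩
  closed i s hs := by
    have e1 : {e : H | ∃ (γ : K) (z : Cm h), ‖z‖ ≤ s ∧ γ • hσ (x i) (r i) z = e} =
        hσ (h := h) (x i) (r i) '' closedBall 0 s := by
      ext e
      constructor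
      · rintro ⟨γ, z, hz, rfl⟩
        rw [Subsingleton.elim γ 1, one_smul]
        exact ⟨z, by simpa using hz, rfl⟩
      · rintro ⟨z, hz, rfl⟩
        exact ⟨1, z, by simpa using hz, one_smul _ _⟩
    rw [e1]
    refine ((isCompact_closedBall (0 : Cm h) s).image_of_continuousOn
      ((D.contOn i).mono ?_)).isClosed
    exact closedBall_subset_ball hs
  hol i j z hz w hw γ e := by
    rw [Subsingleton.elim γ 1, one_smul] at e
    have s1 := D.mem_source i hz
    have s2 : hσ (x i) (r i) z ∈ (chartAt (Cm h) (x j)).source := by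
      rw [e]
      exact D.mem_source j hw
    have h1 := ch_an (chart_mem_atlas (Cm h) (x i)) (chart_mem_atlas (Cm h) (x j)) s1 s2
    rw [D.chart i hz] at h1
    refine ⟨fun u => hi (x j) (r j) (chartAt (Cm h) (x j) (hσ (x i) (r i) u)), ?_, ?_, ?_⟩
    · exact (hi_an _ _ _).comp (h1.comp (hc_an _ _ _))
    · show hi (x j) (r j) (chartAt (Cm h) (x j) (hσ (x i) (r i) z)) = w
      rw [e, D.chart j hw, hi_hc _ (D.pos j)]
    · have h3 : ContinuousAt (hσ (h := h) (x i) (r i)) z := (D.map i hz).le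
      filter_upwards [h3.eventually ((chartAt (Cm h) (x j)).open_source.mem_nhds s2)] with u hu
      rw [Subsingleton.elim γ 1, one_smul]
      show _ = (chartAt (Cm h) (x j)).symm (hc (x j) (r j) _)
      rw [hc_hi _ (D.pos j), (chartAt (Cm h) (x j)).left_inv hu]

/-- The sheets are biholomorphic to the manifold. -/
theorem shS_bih [T2Space H] [IsManifold 𝓘(ℂ, Cm h) ω H] {K : Type} [Group K] [Subsingleton K]
    [MulAction K H] (D : ShData h N x r) :
    H22.TS.Bih (shS (K := K) D) (Homeomorph.refl H) where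
  fwd j z hz e he hs := by
    have s1 := D.mem_source j hz
    have h1 := ch_an (chart_mem_atlas (Cm h) (x j)) he s1 hs
    rw [D.chart j hz] at h1
    exact h1.comp (hc_an _ _ _)
  bwd j z hz e he hs := by
    have s1 := D.mem_source j hz
    have h1 := ch_an he (chart_mem_atlas (Cm h) (x j)) hs s1
    refine ⟨fun v => hi (x j) (r j) (chartAt (Cm h) (x j) (e.symm v)), ?_, ?_, ?_⟩
    · exact (hi_an _ _ _).comp h1
    · have h2 : e.symm (e (hσ (x j) (r j) z)) = hσ (x j) (r j) z := e.left_inv hs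
      show hi (x j) (r j) (chartAt (Cm h) (x j) (e.symm (e (hσ (x j) (r j) z)))) = z
      rw [h2, D.chart j hz, hi_hc _ (D.pos j)]
    · have h3 : ContinuousAt e.symm (e (hσ (x j) (r j) z)) :=
        e.continuousAt_symm (e.map_source hs)
      have h5 : e.symm (e (hσ (x j) (r j) z)) = hσ (x j) (r j) z := e.left_inv hs
      have h4 : e.symm (e (hσ (x j) (r j) z)) ∈ (chartAt (Cm h) (x j)).source := by
        rw [h5]
        exact s1
      filter_upwards [h3.eventually ((chartAt (Cm h) (x j)).open_source.mem_nhds h4)] with v hv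
      show (chartAt (Cm h) (x j)).symm (hc (x j) (r j) _) = e.symm v
      rw [hc_hi _ (D.pos j), (chartAt (Cm h) (x j)).left_inv hv]

/-- Existence. -/
theorem exists_sh [CompactSpace H] :
    ∃ (N : ℕ) (x : Fin N → H) (r : Fin N → ℝ), ShData h N x r := by
  classical
  have h1 : ∀ x : H, ∃ r : ℝ, 0 < r ∧
      ∀ z ∈ ball (0 : Cm h) 3, hc x r z ∈ (chartAt (Cm h) x).target := by
    intro x
    obtain ⟨ε, hε, hb⟩ := Metric.isOpen_iff.1 (chartAt (Cm h) x).open_target _
      (mem_chart_target (Cm h) x)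
    refine ⟨ε / 3, by positivity, fun z hz => hb ?_⟩
    rw [mem_ball, dist_eq_norm, hc, add_sub_cancel_left, norm_smul, Complex.norm_real,
      Real.norm_of_nonneg (by positivity)]
    rw [mem_ball_zero_iff] at hz
    nlinarith
  choose r hr hs using h1
  have h2 : ∀ x : H, hσ (h := h) x (r x) '' ball 0 1 ∈ 𝓝 x := by
    intro x
    have e1 : hσ (h := h) x (r x) = (chartAt (Cm h) x).symm ∘ hc x (r x) := rfl
    have e2 : hc (h := h) x (r x) 0 = chartAt (Cm h) x x := by
      rw [hc, smul_zero, add_zero]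
    have e3 : Filter.map (hσ (h := h) x (r x)) (𝓝 0) = 𝓝 x := by
      rw [e1, ← Filter.map_map, hc_map _ (hr x), e2,
        (chartAt (Cm h) x).symm.map_nhds_eq (mem_chart_target (Cm h) x),
        (chartAt (Cm h) x).left_inv (mem_chart_source (Cm h) x)]
    rw [← e3]
    exact image_mem_map (ball_mem_nhds _ one_pos)
  obtain ⟨t, -, ht⟩ := isCompact_univ.elim_nhds_subcover (fun x : H => hσ (h := h) x (r x) '' ball 0 1)
    fun x _ => h2 x
  obtain ⟨N, ⟨e⟩⟩ : ∃ N, Nonempty (Fin N ≃ t) := ⟨_, ⟨t.equivFin.symm⟩⟩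
  refine ⟨N, fun i => (e i : H), fun i => r (e i : H), fun i => hr _, fun i => hs _, fun y => ?_⟩
  obtain ⟨x, hx, z, hz, h3⟩ := mem_iUnion₂.1 (ht (mem_univ y))
  exact ⟨e.symm ⟨x, hx⟩, z, by simpa using hz, by simpa using h3⟩

end Vale.Agent.P281.H842.HKT
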